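import Vale.Agent.P235.Dist

/-! # P235: Fréchet–Bourgain coordinates of a finite set of landmarks -/

open Finset

namespace Vale.Agent.P235

/-- Weight of a subset of `U` when each point is kept with probability `p`. -/
def mu {α : Type} [DecidableEq α] (p : ℝ) (U T : Finset α) : ℝ := p ^ T.card * (1 - p) ^ (U.card - T.card)

theorem mu_nonneg {α : Type} [DecidableEq α] {p : ℝ} (h0 : 0 ≤ p) (h1 : p ≤ 1) (U T : Finset α) :
    0 ≤ mu p U T :=
  mul_nonneg (pow_nonneg h0 _) (pow_nonneg (by linarith) _)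

theorem mu_total {α : Type} [DecidableEq α] (p : ℝ) (U : Finset α) :
    ∑ T ∈ U.powerset, mu p U T = 1 := by
  unfold mu
  rw [Finset.sum_pow_mul_eq_add_pow]
  simp

theorem mu_miss {α : Type} [DecidableEq α] (p : ℝ) {U B : Finset α} (hB : B ⊆ U) :
    ∑ T ∈ U.powerset.filter (fun T => Disjoint T B), mu p U T = (1 - p) ^ B.card := by
  have h1 : U.powerset.filter (fun T => Disjoint T B) = (U \ B).powerset := by
    ext T; simp [Finset.subset_sdiff, and_comm]
  rw [h1]
  calc ∑ T ∈ (U \ B).powerset, mu p U T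
      = ∑ T ∈ (U \ B).powerset, mu p (U \ B) T * (1 - p) ^ B.card := by
        refine Finset.sum_congr rfl fun T hT => ?_
        have hle := Finset.card_le_card (Finset.mem_powerset.1 hT)
        have hc : (U \ B).card + B.card = U.card := Finset.card_sdiff_add_card_eq_card hB
        unfold mu
        rw [mul_assoc, ← pow_add]
        congr 2
        omega
    _ = (1 - p) ^ B.card := by rw [← Finset.sum_mul, mu_total, one_mul]

theorem pow_half_lower (j : ℕ) : (1 / 4 : ℝ) ≤ (1 - (1 / 2) ^ (j + 1)) ^ (2 ^ (j + 1)) := by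
  induction j with
  | zero => norm_num
  | succ j ih =>
    refine ih.trans ?_
    rw [pow_succ' 2 (j + 1), pow_mul]
    apply pow_le_pow_left₀
    · have : ((1 : ℝ) / 2) ^ (j + 1) ≤ 1 := pow_le_one₀ (by norm_num) (by norm_num)
      linarith
    · rw [pow_succ (1 / 2 : ℝ) (j + 1)]
      nlinarith [sq_nonneg (((1 : ℝ) / 2) ^ (j + 1))]

theorem hit_upper (j : ℕ) : (1 - (1 / 2 : ℝ) ^ (j + 1)) ^ (2 ^ j) ≤ 2 / 3 := by
  set p : ℝ := (1 / 2) ^ (j + 1) with hp
  have hp0 : 0 < p := by positivity
  have hp1 : p ≤ 1 := pow_le_one₀ (by norm_num) (by norm_num)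
  have h1 : (1 - p) ^ (2 ^ j) * (1 + p) ^ (2 ^ j) ≤ 1 := by
    rw [← mul_pow]
    exact pow_le_one₀ (by nlinarith) (by nlinarith)
  have h2 : (3 / 2 : ℝ) ≤ (1 + p) ^ (2 ^ j) := by
    have h := one_add_mul_le_pow (a := p) (by linarith) (2 ^ j)
    have h3 : ((2 ^ j : ℕ) : ℝ) * p = 1 / 2 := by
      rw [hp, pow_succ]; push_cast
      rw [← mul_assoc, ← mul_pow]; norm_num
    linarith
  nlinarith [pow_nonneg (sub_nonneg.2 hp1) (2 ^ j)]

variable {V : Type} [Fintype V] [DecidableEq V] {d : V → V → ℝ}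

/-- Distance to a finite set, with value `0` for the empty set. -/
noncomputable def dset (d : V → V → ℝ) (S : Finset V) (x : V) : ℝ :=
  if h : S.Nonempty then S.inf' h (fun s => d x s) else 0

theorem dset_lip (htri : ∀ x y z, d x z ≤ d x y + d y z) (hcomm : ∀ x y, d x y = d y x)
    (h0 : ∀ x, d x x = 0) (S : Finset V) (x y : V) : |dset d S x - dset d S y| ≤ d x y := by
  unfold dset
  split_ifs with h
  · have key : ∀ a b, S.inf' h (fun s => d a s) ≤ d a b + S.inf' h (fun s => d b s) := by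
      intro a b
      obtain ⟨s, hs, he⟩ := Finset.exists_mem_eq_inf' h (fun s => d b s)
      rw [he]
      exact (Finset.inf'_le _ hs).trans (htri a b s)
    rw [abs_sub_le_iff]
    have h1 := key x y
    have h2 := key y x
    rw [hcomm y x] at h2
    exact ⟨by linarith, by linarith⟩
  · have h1 := htri x y x
    rw [h0, hcomm y x] at h1
    simp only [sub_self, abs_zero]; linarith

/-- One scale of the lemma: one ball is hit and the other one is missed. -/
theorem level_lower (hcomm : ∀ x y, d x y = d y x) (htri : ∀ x y z, d x z ≤ d x y + d y z)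
    (A : Finset V) (a b : V) (j : ℕ) {r s : ℝ} (hr : r + s ≤ d a b) (hsr : s ≤ r)
    (hlt : (A.filter (fun v => d a v < r)).card < 2 ^ (j + 1))
    (hge : 2 ^ j ≤ (A.filter (fun v => d b v ≤ s)).card) :
    (r - s) / 12 ≤ ∑ T ∈ A.powerset, mu ((1 / 2) ^ (j + 1)) A T * |dset d T a - dset d T b| := by
  set p : ℝ := (1 / 2) ^ (j + 1)
  have hp0 : 0 ≤ p := by positivity
  have hp1 : p ≤ 1 := pow_le_one₀ (by norm_num) (by norm_num)
  set B₁ := A.filter (fun v => d a v < r)
  set B₂ := A.filter (fun v => d b v ≤ s)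
  have hdis : Disjoint B₁ B₂ := by
    rw [Finset.disjoint_left]
    intro v h1 h2
    simp only [B₁, B₂, Finset.mem_filter] at h1 h2
    have := htri a v b
    rw [hcomm v b] at this
    linarith [h1.2, h2.2]
  have hs1 : B₁ ⊆ A := Finset.filter_subset _ _
  have hs2 : B₂ ⊆ A := Finset.filter_subset _ _
  set M := A.powerset.filter (fun T => Disjoint T B₁)
  set M' := A.powerset.filter (fun T => Disjoint T (B₁ ∪ B₂))
  have hM' : M' ⊆ M := by
    intro T hT
    simp only [M, M', Finset.mem_filter, Finset.disjoint_union_right] at hT ⊢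
    exact ⟨hT.1, hT.2.1⟩
  have hsum : 1 / 12 ≤ ∑ T ∈ M \ M', mu p A T := by
    have h := Finset.sum_sdiff (f := mu p A) hM'
    rw [mu_miss p hs1, mu_miss p (Finset.union_subset hs1 hs2), Finset.card_union_of_disjoint hdis,
      pow_add] at h
    have h1 : (1 / 4 : ℝ) ≤ (1 - p) ^ B₁.card :=
      (pow_half_lower j).trans (pow_le_pow_of_le_one (by linarith) (by linarith) hlt.le)
    have h2 : (1 - p) ^ B₂.card ≤ 2 / 3 :=
      (pow_le_pow_of_le_one (by linarith) (by linarith) hge).trans (hit_upper j)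
    nlinarith
  have hone : ∀ T ∈ M \ M', mu p A T * (r - s) ≤ mu p A T * |dset d T a - dset d T b| := by
    intro T hT
    refine mul_le_mul_of_nonneg_left ?_ (mu_nonneg hp0 hp1 _ _)
    simp only [M, M', Finset.mem_sdiff, Finset.mem_filter, Finset.disjoint_union_right,
      Finset.mem_powerset] at hT
    obtain ⟨⟨hTA, hT1⟩, hT2⟩ := hT
    have hT2' : ¬ Disjoint T B₂ := fun h => hT2 ⟨hTA, hT1, h⟩
    obtain ⟨v, hvT, hvB⟩ := Finset.not_disjoint_iff.1 hT2'
    have hne : T.Nonempty := ⟨v, hvT⟩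
    have ha : r ≤ dset d T a := by
      rw [dset, dif_pos hne]
      refine Finset.le_inf' _ _ fun u hu => ?_
      by_contra hcon
      exact Finset.disjoint_left.1 hT1 hu (Finset.mem_filter.2 ⟨hTA hu, not_le.1 hcon⟩)
    have hb : dset d T b ≤ s := by
      rw [dset, dif_pos hne]
      exact (Finset.inf'_le _ hvT).trans (Finset.mem_filter.1 hvB).2
    exact (by linarith : r - s ≤ dset d T a - dset d T b).trans (le_abs_self _)
  calc (r - s) / 12 = (1 / 12) * (r - s) := by ring
    _ ≤ (∑ T ∈ M \ M', mu p A T) * (r - s) :=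
        mul_le_mul_of_nonneg_right hsum (by linarith)
    _ ≤ ∑ T ∈ M \ M', mu p A T * |dset d T a - dset d T b| := by
        rw [Finset.sum_mul]; exact Finset.sum_le_sum hone
    _ ≤ _ := Finset.sum_le_sum_of_subset_of_nonneg
        (Finset.sdiff_subset.trans (Finset.filter_subset _ _))
        (fun T _ _ => mul_nonneg (mu_nonneg hp0 hp1 _ _) (abs_nonneg _))

/-- Admissible radii at level `j`. -/
noncomputable def cand (d : V → V → ℝ) (A : Finset V) (a b : V) (j : ℕ) : Finset ℝ :=
  insert (d a b / 2) ((A.image (d a) ∪ A.image (d b)).filter fun q => q ≤ d a b / 2 ∧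
    2 ^ j ≤ (A.filter (fun v => d a v ≤ q)).card ∧ 2 ^ j ≤ (A.filter (fun v => d b v ≤ q)).card)

/-- The level-`j` radius. -/
noncomputable def rad (d : V → V → ℝ) (A : Finset V) (a b : V) (j : ℕ) : ℝ :=
  (cand d A a b j).min' (Finset.insert_nonempty _ _)

theorem bourgain_lower (hcomm : ∀ x y, d x y = d y x) (htri : ∀ x y z, d x z ≤ d x y + d y z)
    (h0 : ∀ x, d x x = 0) {A : Finset V} {a b : V} (ha : a ∈ A) (hb : b ∈ A) :
    d a b / 24 ≤ ∑ j ∈ range (Nat.log 2 A.card + 1), ∑ T ∈ A.powerset,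
      mu ((1 / 2) ^ (j + 1)) A T * |dset d T a - dset d T b| := by
  have hnn : ∀ x y, 0 ≤ d x y := fun x y => by
    have := htri x y x; rw [h0, hcomm y x] at this; linarith
  set m := Nat.log 2 A.card + 1
  set ρ := rad d A a b
  have hρle : ∀ j, ρ j ≤ d a b / 2 := fun j => Finset.min'_le _ _ (Finset.mem_insert_self _ _)
  have hρ0 : ρ 0 ≤ 0 := by
    apply Finset.min'_le
    refine Finset.mem_insert_of_mem (Finset.mem_filter.2 ⟨Finset.mem_union_left _ ?_, ?_, ?_, ?_⟩)
    · exact Finset.mem_image.2 ⟨a, ha, h0 a⟩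
    · linarith [hnn a b]
    · exact Finset.card_pos.2 ⟨a, by simp [ha, h0]⟩
    · exact Finset.card_pos.2 ⟨b, by simp [hb, h0]⟩
  have hρm : d a b / 2 ≤ ρ m := by
    refine Finset.le_min' _ _ _ fun q hq => ?_
    rcases Finset.mem_insert.1 hq with rfl | hq
    · exact le_rfl
    · have h1 := (Finset.mem_filter.1 hq).2.2.1.trans (Finset.card_filter_le _ _)
      have h2 := Nat.lt_pow_succ_log_self (b := 2) (by norm_num) A.card
      simp only [Nat.succ_eq_add_one] at h2
      exfalso; exact absurd h1 (not_le.2 h2)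
  have hclosed : ∀ j, ρ j < d a b / 2 →
      2 ^ j ≤ (A.filter (fun v => d a v ≤ ρ j)).card ∧ 2 ^ j ≤ (A.filter (fun v => d b v ≤ ρ j)).card := by
    intro j hj
    rcases Finset.mem_insert.1 (Finset.min'_mem (cand d A a b j) (Finset.insert_nonempty _ _)) with h | h
    · exact absurd h (ne_of_lt hj)
    · exact (Finset.mem_filter.1 h).2.2
  have hopen : ∀ j, (A.filter (fun v => d a v < ρ j)).card < 2 ^ j ∨
      (A.filter (fun v => d b v < ρ j)).card < 2 ^ j := by
    intro j
    by_contra hcon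
    obtain ⟨h1, h2⟩ := not_or.1 hcon
    rw [not_lt] at h1 h2
    set Q := (A.filter (fun v => d a v < ρ j)).image (d a) ∪ (A.filter (fun v => d b v < ρ j)).image (d b)
    have hQ : Q.Nonempty := by
      have : 0 < (A.filter (fun v => d a v < ρ j)).card := lt_of_lt_of_le (Nat.two_pow_pos j) h1
      obtain ⟨v, hv⟩ := Finset.card_pos.1 this
      exact ⟨d a v, Finset.mem_union_left _ (Finset.mem_image_of_mem _ hv)⟩
    set q := Q.max' hQ
    have hqlt : q < ρ j := by
      rcases Finset.mem_union.1 (Q.max'_mem hQ) with h | h <;>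
        (obtain ⟨v, hv, he⟩ := Finset.mem_image.1 h
         have := (Finset.mem_filter.1 hv).2
         linarith [he.symm ▸ this])
    have hmem : q ∈ cand d A a b j := by
      refine Finset.mem_insert_of_mem (Finset.mem_filter.2 ⟨?_, by linarith [hρle j], ?_, ?_⟩)
      · rcases Finset.mem_union.1 (Q.max'_mem hQ) with h | h <;>
          obtain ⟨v, hv, he⟩ := Finset.mem_image.1 h
        · exact Finset.mem_union_left _ (Finset.mem_image.2 ⟨v, (Finset.mem_filter.1 hv).1, he⟩)
        · exact Finset.mem_union_right _ (Finset.mem_image.2 ⟨v, (Finset.mem_filter.1 hv).1, he⟩)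
      · refine h1.trans (Finset.card_le_card fun v hv => Finset.mem_filter.2
          ⟨(Finset.mem_filter.1 hv).1, Q.le_max' _ (Finset.mem_union_left _ (Finset.mem_image_of_mem _ hv))⟩)
      · refine h2.trans (Finset.card_le_card fun v hv => Finset.mem_filter.2
          ⟨(Finset.mem_filter.1 hv).1, Q.le_max' _ (Finset.mem_union_right _ (Finset.mem_image_of_mem _ hv))⟩)
    exact absurd (Finset.min'_le _ _ hmem) (not_le.2 hqlt)
  have hstep : ∀ j, (ρ (j + 1) - ρ j) / 12 ≤
      ∑ T ∈ A.powerset, mu ((1 / 2) ^ (j + 1)) A T * |dset d T a - dset d T b| := by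
    intro j
    rcases le_or_gt (ρ (j + 1)) (ρ j) with h | h
    · refine le_trans (by linarith) (Finset.sum_nonneg fun T _ =>
        mul_nonneg (mu_nonneg (by positivity) (pow_le_one₀ (by norm_num) (by norm_num)) _ _) (abs_nonneg _))
    · have hj : ρ j < d a b / 2 := h.trans_le (hρle _)
      obtain ⟨hca, hcb⟩ := hclosed j hj
      rcases hopen (j + 1) with ho | ho
      · exact level_lower hcomm htri A a b j (by linarith [hρle (j + 1)]) h.le ho hcb
      · have := level_lower hcomm htri A b a j (by rw [hcomm b a]; linarith [hρle (j + 1)]) h.le ho hca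
        simpa only [abs_sub_comm] using this
  calc d a b / 24 ≤ ∑ j ∈ range m, (ρ (j + 1) - ρ j) / 12 := by
        rw [← Finset.sum_div, Finset.sum_range_sub]; linarith
    _ ≤ _ := Finset.sum_le_sum fun j _ => hstep j

end Vale.Agent.P235
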