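import Vale.Agent.P235.Cuts

/-! # P235: clipping an embedding by the distance to the deleted set -/

open Finset

namespace Vale.Agent.P235

/-- Tent function of scale `2^k`. -/
noncomputable def tent (k : ℤ) (r : ℝ) : ℝ := max 0 (min (r - (2 : ℝ) ^ k / 2) ((2 : ℝ) ^ k * 4 - r))

theorem tent_nonneg (k : ℤ) (r : ℝ) : 0 ≤ tent k r := le_max_left _ _

theorem tent_le (k : ℤ) (r : ℝ) : tent k r ≤ 2 * (2 : ℝ) ^ k := by
  have h : (0 : ℝ) < (2 : ℝ) ^ k := zpow_pos two_pos k
  refine max_le (by positivity) ?_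
  rcases le_total r ((2 : ℝ) ^ k * (9 / 4)) with h1 | h1
  · exact (min_le_left _ _).trans (by linarith)
  · exact (min_le_right _ _).trans (by linarith)

theorem tent_lip (k : ℤ) (r s : ℝ) : |tent k r - tent k s| ≤ |r - s| := by
  unfold tent
  refine (abs_max_sub_max_le_max 0 _ 0 _).trans (max_le (by simp [abs_nonneg]) ?_)
  refine (abs_min_sub_min_le_max _ _ _ _).trans (max_le ?_ ?_)
  · simp
  · rw [show (2 : ℝ) ^ k * 4 - r - ((2 : ℝ) ^ k * 4 - s) = -(r - s) by ring, abs_neg]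

theorem tent_support {k : ℤ} {r : ℝ} (h : tent k r ≠ 0) :
    0 < r ∧ k ∈ Finset.Icc (Int.log 2 r - 1) (Int.log 2 r + 1) := by
  have h2 : 0 < min (r - (2 : ℝ) ^ k / 2) ((2 : ℝ) ^ k * 4 - r) := by
    by_contra hc
    exact h (max_eq_left (not_lt.1 hc))
  obtain ⟨ha, hb⟩ := lt_min_iff.1 h2
  have hk : (0 : ℝ) < (2 : ℝ) ^ k := zpow_pos two_pos k
  have hr : 0 < r := by linarith
  refine ⟨hr, ?_⟩
  have l1 := Int.zpow_log_le_self (b := 2) (by norm_num) hr
  have l2 := Int.lt_zpow_succ_log_self (b := 2) (by norm_num) r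
  push_cast at l1 l2
  set L := Int.log 2 r
  have hu : k - 1 < L + 1 := by
    rw [← zpow_lt_zpow_iff_right₀ (one_lt_two (α := ℝ)), zpow_sub_one₀ (two_ne_zero)]
    linarith
  have hl : L < k + 2 := by
    rw [← zpow_lt_zpow_iff_right₀ (one_lt_two (α := ℝ)), show k + 2 = k + 1 + 1 by ring,
      zpow_add_one₀ two_ne_zero, zpow_add_one₀ two_ne_zero]
    linarith
  rw [Finset.mem_Icc]; omega

theorem tent_mid {r : ℝ} (hr : 0 < r) {t : ℝ} (h1 : r ≤ t) (h2 : t ≤ (3 / 2) * r) :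
    (2 : ℝ) ^ Int.log 2 r / 2 ≤ tent (Int.log 2 r) t := by
  have l1 := Int.zpow_log_le_self (b := 2) (by norm_num) hr
  have l2 := Int.lt_zpow_succ_log_self (b := 2) (by norm_num) r
  rw [zpow_add_one₀ (by norm_num)] at l2
  push_cast at l1 l2
  exact le_trans (le_min (by linarith) (by linarith)) (le_max_right _ _)

variable {V ι : Type} [Fintype V] [Fintype ι]

/-- The multiscale clipped map. -/
theorem exists_clip (h : V → ι → ℝ) (r : V → ℝ) :
    ∃ (κ : Type) (_ : Fintype κ) (Q : V → κ → ℝ), (∀ x, r x = 0 → Q x = 0) ∧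
      (∀ x, ∑ k, |Q x k| ≤ 6 * |r x|) ∧
      (∀ x y, l1 (Q x) (Q y) ≤ 6 * |r x - r y| + 12 * l1 (h x) (h y)) ∧
      ∀ x y, 0 < r x → r x ≤ r y → r y ≤ (3 / 2) * r x →
        min (l1 (h x) (h y)) (r x) ≤ 16 * l1 (Q x) (Q y) := by
  classical
  let K : Finset ℤ := univ.biUnion fun v : V => Finset.Icc (Int.log 2 (r v) - 1) (Int.log 2 (r v) + 1)
  have hpos : ∀ k : ℤ, (0 : ℝ) < (2 : ℝ) ^ k := fun k => zpow_pos two_pos k
  choose κ hκ g hg0 hgs hglip hglow hgval using fun k : K => exists_trunc h (hpos k.1)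
  let Q : V → (Σ k : K, κ k) → ℝ := fun x p => tent p.1.1 (r x) / (2 : ℝ) ^ p.1.1 * g p.1 x p.2
  have hcard : ∀ (x : V), (univ.filter fun k : K => tent k.1 (r x) ≠ 0).card ≤ 3 := by
    intro x
    have hsub : (univ.filter fun k : K => tent k.1 (r x) ≠ 0).image Subtype.val ⊆
        Finset.Icc (Int.log 2 (r x) - 1) (Int.log 2 (r x) + 1) := by
      intro k hk
      obtain ⟨k', hk', rfl⟩ := Finset.mem_image.1 hk
      exact (tent_support (Finset.mem_filter.1 hk').2).2
    have := Finset.card_le_card hsub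
    rw [Finset.card_image_of_injective _ Subtype.val_injective, Int.card_Icc] at this
    omega
  have hblock : ∀ x, ∀ k : K, ∑ j, |Q x ⟨k, j⟩| ≤ tent k.1 (r x) := by
    intro x k
    have hc : 0 ≤ tent k.1 (r x) / (2 : ℝ) ^ k.1 := div_nonneg (tent_nonneg _ _) (hpos _).le
    calc ∑ j, |Q x ⟨k, j⟩| = tent k.1 (r x) / (2 : ℝ) ^ k.1 * ∑ j, g k x j := by
          rw [Finset.mul_sum]
          exact Finset.sum_congr rfl fun j _ => abs_of_nonneg (mul_nonneg hc (hg0 k x j))
      _ ≤ tent k.1 (r x) / (2 : ℝ) ^ k.1 * (2 : ℝ) ^ k.1 := mul_le_mul_of_nonneg_left (hgs k x) hc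
      _ = _ := div_mul_cancel₀ _ (hpos _).ne'
  refine ⟨Σ k : K, κ k, inferInstance, Q, fun x hx => ?_, fun x => ?_, fun x y => ?_,
    fun x y hx hxy hy => ?_⟩
  · funext p
    have : tent p.1.1 (r x) = 0 := by
      by_contra hc; exact absurd (tent_support hc).1 (by simp [hx])
    simp [Q, this]
  · rw [Fintype.sum_sigma]
    calc ∑ k : K, ∑ j, |Q x ⟨k, j⟩| ≤ ∑ k : K, tent k.1 (r x) := Finset.sum_le_sum fun k _ => hblock x k
      _ = ∑ k ∈ univ.filter (fun k : K => tent k.1 (r x) ≠ 0), tent k.1 (r x) :=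
          (Finset.sum_filter_ne_zero _).symm
      _ ≤ (univ.filter (fun k : K => tent k.1 (r x) ≠ 0)).card • (|r x| * 2) := by
          refine Finset.sum_le_card_nsmul _ _ _ fun k hk => ?_
          have hp := (tent_support (Finset.mem_filter.1 hk).2).1
          rw [abs_of_pos hp]
          refine (max_le (by linarith) ((min_le_left _ _).trans ?_))
          linarith [hpos k.1]
      _ ≤ _ := by
          rw [nsmul_eq_mul]
          have h3 : ((univ.filter (fun k : K => tent k.1 (r x) ≠ 0)).card : ℝ) ≤ 3 := by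
            exact_mod_cast hcard x
          nlinarith [abs_nonneg (r x)]
  · rw [l1, Fintype.sum_sigma]
    set S := univ.filter (fun k : K => tent k.1 (r x) ≠ 0) ∪ univ.filter (fun k : K => tent k.1 (r y) ≠ 0)
    have hS : (S.card : ℝ) ≤ 6 := by
      have := (Finset.card_union_le _ _).trans (Nat.add_le_add (hcard x) (hcard y))
      exact_mod_cast this
    rw [← Finset.sum_subset (Finset.subset_univ S) (fun k _ hk => ?_)]
    · calc ∑ k ∈ S, ∑ j, |Q x ⟨k, j⟩ - Q y ⟨k, j⟩|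
          ≤ ∑ k ∈ S, (|r x - r y| + 2 * l1 (h x) (h y)) := Finset.sum_le_sum fun k _ => ?_
        _ ≤ _ := by
          rw [Finset.sum_const, nsmul_eq_mul]
          nlinarith [abs_nonneg (r x - r y), l1_nonneg (h x) (h y)]
      set a := tent k.1 (r x) / (2 : ℝ) ^ k.1
      set b := tent k.1 (r y) / (2 : ℝ) ^ k.1
      have hb0 : 0 ≤ b := div_nonneg (tent_nonneg _ _) (hpos _).le
      have hb2 : b ≤ 2 := (div_le_iff₀ (hpos _)).2 (tent_le _ _)
      have hab : |a - b| * (2 : ℝ) ^ k.1 ≤ |r x - r y| := by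
        rw [← sub_div, abs_div, abs_of_pos (hpos k.1), div_mul_cancel₀ _ (hpos k.1).ne']
        exact tent_lip _ _ _
      calc ∑ j, |Q x ⟨k, j⟩ - Q y ⟨k, j⟩|
          ≤ ∑ j, (|a - b| * g k x j + b * |g k x j - g k y j|) := Finset.sum_le_sum fun j _ => by
            have e : Q x ⟨k, j⟩ - Q y ⟨k, j⟩ = (a - b) * g k x j + b * (g k x j - g k y j) := by
              simp only [Q, a, b]; ring
            rw [e]
            refine (abs_add_le _ _).trans (le_of_eq ?_)
            rw [abs_mul, abs_mul, abs_of_nonneg (hg0 k x j), abs_of_nonneg hb0]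
        _ = |a - b| * ∑ j, g k x j + b * l1 (g k x) (g k y) := by
            rw [Finset.sum_add_distrib, l1, Finset.mul_sum, Finset.mul_sum]
        _ ≤ _ := add_le_add ((mul_le_mul_of_nonneg_left (hgs k x) (abs_nonneg _)).trans hab)
            (mul_le_mul hb2 (hglip k x y) (l1_nonneg _ _) two_pos.le)
    · simp only [S, Finset.mem_union, Finset.mem_filter, Finset.mem_univ, true_and, not_or, not_not] at hk
      simp [Q, hk.1, hk.2]
  · set L := Int.log 2 (r x)
    have hL : L ∈ K := Finset.mem_biUnion.2 ⟨x, Finset.mem_univ x, Finset.mem_Icc.2 ⟨by omega, by omega⟩⟩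
    let k : K := ⟨L, hL⟩
    have ha : 1 / 2 ≤ tent L (r x) / (2 : ℝ) ^ L := by
      rw [le_div_iff₀ (hpos L)]; linarith [tent_mid hx le_rfl (by linarith : r x ≤ 3 / 2 * r x)]
    have hb : 1 / 2 ≤ tent L (r y) / (2 : ℝ) ^ L := by
      rw [le_div_iff₀ (hpos L)]; linarith [tent_mid hx hxy hy]
    have hsx : r x ≤ 2 * (2 : ℝ) ^ L := by
      have l2 := Int.lt_zpow_succ_log_self (b := 2) (by norm_num) (r x)
      rw [zpow_add_one₀ (by norm_num)] at l2
      push_cast at l2
      linarith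
    have hlow := hglow k x y
    have hterm : l1 (g k x) (g k y) / 2 ≤ ∑ j, |Q x ⟨k, j⟩ - Q y ⟨k, j⟩| := by
      rw [l1, Finset.sum_div]
      refine Finset.sum_le_sum fun j _ => ?_
      simp only [Q]
      rcases hgval k x y j with h0 | h0 | h0
      · rw [h0, zero_sub, mul_zero, zero_sub, abs_neg, abs_neg, abs_mul,
          abs_of_nonneg (show 0 ≤ tent L (r y) / (2 : ℝ) ^ L by linarith)]
        nlinarith [abs_nonneg (g k y j)]
      · rw [h0, sub_zero, mul_zero, sub_zero, abs_mul,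
          abs_of_nonneg (show 0 ≤ tent L (r x) / (2 : ℝ) ^ L by linarith)]
        nlinarith [abs_nonneg (g k x j)]
      · simp [h0]
    have hsub : ∑ j, |Q x ⟨k, j⟩ - Q y ⟨k, j⟩| ≤ l1 (Q x) (Q y) := by
      rw [l1, Fintype.sum_sigma]
      exact Finset.single_le_sum (f := fun k : K => ∑ j, |Q x ⟨k, j⟩ - Q y ⟨k, j⟩|)
        (fun _ _ => Finset.sum_nonneg fun _ _ => abs_nonneg _) (Finset.mem_univ k)
    rcases min_choice (l1 (h x) (h y)) ((2 : ℝ) ^ L) with hm | hm
    · have : min (l1 (h x) (h y)) ((2 : ℝ) ^ k.1) = l1 (h x) (h y) := hm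
      linarith [min_le_left (l1 (h x) (h y)) (r x), l1_nonneg (Q x) (Q y)]
    · have : min (l1 (h x) (h y)) ((2 : ℝ) ^ k.1) = (2 : ℝ) ^ L := hm
      linarith [min_le_right (l1 (h x) (h y)) (r x)]

end Vale.Agent.P235
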