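import Vale.Agent.P235.Dist

/-! # P235: truncating a finite subset of `ℓ₁` at a prescribed scale -/

open Finset

namespace Vale.Agent.P235

/-- The element preceding `w` in `W`, or `w` itself. -/
noncomputable def gap (W : Finset ℝ) (w : ℝ) : ℝ :=
  if h : (W.filter (· < w)).Nonempty then w - (W.filter (· < w)).max' h else 0

theorem gap_nonneg (W : Finset ℝ) (w : ℝ) : 0 ≤ gap W w := by
  unfold gap
  split_ifs with h
  · have := (Finset.mem_filter.1 ((W.filter (· < w)).max'_mem h)).2
    linarith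
  · exact le_rfl

theorem gap_insert {W : Finset ℝ} {a w : ℝ} (hw : w ≤ a) : gap (insert a W) w = gap W w := by
  have : (insert a W).filter (· < w) = W.filter (· < w) := by
    rw [Finset.filter_insert, if_neg (not_lt.2 hw)]
  simp only [gap, this]

/-- The gaps above `a` and up to `b` add up to `b - a`. -/
theorem gap_sum (W : Finset ℝ) : ∀ a ∈ W, ∀ b ∈ W, a ≤ b →
    ∑ w ∈ W, (if a < w ∧ w ≤ b then gap W w else 0) = b - a := by
  induction W using Finset.induction_on_max with
  | empty => simp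
  | insert c W hc ih =>
    have hcW : c ∉ W := fun h => lt_irrefl c (hc c h)
    intro a ha b hb hab
    rw [Finset.sum_insert hcW]
    have hrest : ∑ w ∈ W, (if a < w ∧ w ≤ b then gap (insert c W) w else 0) =
        ∑ w ∈ W, (if a < w ∧ w ≤ b then gap W w else 0) :=
      Finset.sum_congr rfl fun w hw => by rw [gap_insert (hc w hw).le]
    rw [hrest]
    rcases Finset.mem_insert.1 hb with rfl | hbW
    · rcases Finset.mem_insert.1 ha with rfl | haW
      · simp only [lt_irrefl, false_and, if_false, zero_add, sub_self]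
        exact Finset.sum_eq_zero fun w _ => if_neg fun h => absurd (h.1.trans_le h.2) (lt_irrefl _)
      · have hne : W.Nonempty := ⟨a, haW⟩
        have hfil : (insert b W).filter (· < b) = W := by
          rw [Finset.filter_insert, if_neg (lt_irrefl b)]
          exact Finset.filter_true_of_mem hc
        have hgap : gap (insert b W) b = b - W.max' hne := by
          simp only [gap, hfil, dif_pos hne]
        have := ih a haW (W.max' hne) (W.max'_mem hne) (W.le_max' a haW)
        rw [if_pos ⟨hc a haW, le_rfl⟩, hgap]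
        have h2 : ∑ w ∈ W, (if a < w ∧ w ≤ b then gap W w else 0) =
            ∑ w ∈ W, (if a < w ∧ w ≤ W.max' hne then gap W w else 0) :=
          Finset.sum_congr rfl fun w hw => by simp [(hc w hw).le, W.le_max' w hw]
        rw [h2, this]; ring
    · have haW : a ∈ W := by
        rcases Finset.mem_insert.1 ha with rfl | h
        · exact absurd (hc b hbW) (not_lt.2 hab)
        · exact h
      rw [if_neg fun h => absurd (hc b hbW) (not_lt.2 h.2), zero_add]
      exact ih a haW b hbW hab

theorem gap_abs (W : Finset ℝ) {a b : ℝ} (ha : a ∈ W) (hb : b ∈ W) :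
    ∑ w ∈ W, gap W w * |(if w ≤ a then (1 : ℝ) else 0) - (if w ≤ b then 1 else 0)| = |a - b| := by
  wlog hab : a ≤ b generalizing a b with H
  · rw [abs_sub_comm a b, ← H hb ha (le_of_not_ge hab)]
    exact Finset.sum_congr rfl fun w _ => by rw [abs_sub_comm]
  rw [abs_of_nonpos (by linarith : a - b ≤ 0), neg_sub, ← gap_sum W a ha b hb hab]
  refine Finset.sum_congr rfl fun w _ => ?_
  by_cases h1 : w ≤ a
  · simp [h1, h1.trans hab, not_lt.2 h1]
  · by_cases h2 : w ≤ b
    · simp [h1, h2, not_le.1 h1]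
    · simp [h1, h2]

section Parity

variable {E : Type} [Fintype E] [DecidableEq E]

/-- Weight of a random set of cuts. -/
noncomputable def cw (q : E → ℝ) (T : Finset E) : ℝ := (∏ e ∈ T, q e) * ∏ e ∈ univ \ T, (1 - q e)

/-- Parity indicator. -/
noncomputable def par (σ : E → Bool) (T : Finset E) : ℝ :=
  (1 - ∏ e ∈ T, if σ e then (-1 : ℝ) else 1) / 2

theorem par_pm (σ : E → Bool) (T : Finset E) :
    (∏ e ∈ T, if σ e then (-1 : ℝ) else 1) = 1 ∨ (∏ e ∈ T, if σ e then (-1 : ℝ) else 1) = -1 := by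
  induction T using Finset.induction_on with
  | empty => simp
  | insert a s ha ih =>
    rw [Finset.prod_insert ha]
    rcases ih with h | h <;> rcases Bool.eq_false_or_eq_true (σ a) with h' | h' <;> simp [h, h']

theorem par_abs (σ τ : E → Bool) (T : Finset E) :
    |par σ T - par τ T| = (1 - ∏ e ∈ T, if σ e = τ e then (1 : ℝ) else -1) / 2 := by
  have hprod : (∏ e ∈ T, if σ e = τ e then (1 : ℝ) else -1) =
      (∏ e ∈ T, if σ e then (-1 : ℝ) else 1) * ∏ e ∈ T, if τ e then (-1 : ℝ) else 1 := by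
    rw [← Finset.prod_mul_distrib]
    exact Finset.prod_congr rfl fun e _ => by cases σ e <;> cases τ e <;> norm_num
  rw [hprod]
  unfold par
  rcases par_pm σ T with h | h <;> rcases par_pm τ T with h' | h' <;> rw [h, h'] <;> norm_num

theorem par_range (σ : E → Bool) (T : Finset E) : 0 ≤ par σ T ∧ par σ T ≤ 1 := by
  have h : |∏ e ∈ T, if σ e then (-1 : ℝ) else 1| ≤ 1 := by
    rw [Finset.abs_prod]
    exact Finset.prod_le_one (fun e _ => abs_nonneg _) fun e _ => by split <;> norm_num
  obtain ⟨h1, h2⟩ := abs_le.1 h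
  unfold par; constructor <;> linarith

theorem cw_nonneg {q : E → ℝ} (h0 : ∀ e, 0 ≤ q e) (h1 : ∀ e, q e ≤ 1) (T : Finset E) : 0 ≤ cw q T :=
  mul_nonneg (Finset.prod_nonneg fun e _ => h0 e) (Finset.prod_nonneg fun e _ => by linarith [h1 e])

theorem cw_total (q : E → ℝ) : ∑ T : Finset E, cw q T = 1 := by
  have := Finset.prod_add q (fun e => 1 - q e) univ
  simp only [add_sub_cancel, Finset.prod_const_one, Finset.powerset_univ] at this
  exact this.symm

/-- A random set of cuts separates two points with probability `(1 - e^{-2D})/2`. -/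
theorem parity_sep (c : E → ℝ) (σ τ : E → Bool) :
    ∑ T : Finset E, cw (fun e => (1 - Real.exp (-2 * c e)) / 2) T * |par σ T - par τ T| =
      (1 - Real.exp (-2 * ∑ e, if σ e = τ e then 0 else c e)) / 2 := by
  set q : E → ℝ := fun e => (1 - Real.exp (-2 * c e)) / 2 with hq
  set ε : E → ℝ := fun e => if σ e = τ e then (1 : ℝ) else -1 with hε
  have h1 : ∑ T : Finset E, cw q T * ∏ e ∈ T, ε e = ∏ e, (q e * ε e + (1 - q e)) := by
    rw [Finset.prod_add, Finset.powerset_univ]
    refine Finset.sum_congr rfl fun T _ => ?_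
    rw [cw, Finset.prod_mul_distrib]; ring
  have h2 : ∏ e, (q e * ε e + (1 - q e)) = Real.exp (-2 * ∑ e, if σ e = τ e then 0 else c e) := by
    rw [Finset.mul_sum, Real.exp_sum]
    refine Finset.prod_congr rfl fun e _ => ?_
    simp only [hq, hε]
    split <;> simp <;> ring
  calc ∑ T : Finset E, cw q T * |par σ T - par τ T|
      = ∑ T : Finset E, (cw q T - cw q T * ∏ e ∈ T, ε e) / 2 :=
        Finset.sum_congr rfl fun T _ => by rw [par_abs]; ring
    _ = _ := by rw [← Finset.sum_div, Finset.sum_sub_distrib, cw_total, h1, h2]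

end Parity

/-- Truncation at scale `s`: coordinates in `[0,s]`, comparable to `min D s`. -/
theorem exists_trunc {V ι : Type} [Fintype V] [Fintype ι] (h : V → ι → ℝ) {s : ℝ} (hs : 0 < s) :
    ∃ (κ : Type) (_ : Fintype κ) (g : V → κ → ℝ), (∀ x k, 0 ≤ g x k) ∧ (∀ x, ∑ k, g x k ≤ s) ∧
      (∀ x y, l1 (g x) (g y) ≤ l1 (h x) (h y)) ∧
      (∀ x y, min (l1 (h x) (h y)) s ≤ 4 * l1 (g x) (g y)) ∧
      ∀ x y k, g x k = 0 ∨ g y k = 0 ∨ g x k = g y k := by
  classical
  let W : ι → Finset ℝ := fun i => univ.image fun v => h v i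
  let E := Σ i, {w // w ∈ W i}
  let σ : V → E → Bool := fun x e => decide (e.2.1 ≤ h x e.1)
  let c : E → ℝ := fun e => gap (W e.1) e.2.1 / s
  have hc : ∀ e, 0 ≤ c e := fun e => div_nonneg (gap_nonneg _ _) hs.le
  let q : E → ℝ := fun e => (1 - Real.exp (-2 * c e)) / 2
  have hq0 : ∀ e, 0 ≤ q e := fun e => by
    have : Real.exp (-2 * c e) ≤ 1 := Real.exp_le_one_iff.2 (by linarith [hc e])
    simp only [q]; linarith
  have hq1 : ∀ e, q e ≤ 1 := fun e => by
    simp only [q]; linarith [Real.exp_pos (-2 * c e)]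
  let g : V → Finset E → ℝ := fun x T => s * (cw q T * par (σ x) T)
  have hD : ∀ x y, (∑ e, if σ x e = σ y e then 0 else c e) = l1 (h x) (h y) / s := by
    intro x y
    rw [l1, Finset.sum_div, Fintype.sum_sigma]
    refine Finset.sum_congr rfl fun i _ => ?_
    have hmem : ∀ v, h v i ∈ W i := fun v => Finset.mem_image_of_mem _ (Finset.mem_univ v)
    rw [← gap_abs (W i) (hmem x) (hmem y), Finset.sum_div]
    rw [← Finset.sum_coe_sort (W i)]
    refine Finset.sum_congr rfl fun w _ => ?_
    simp only [σ, c]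
    by_cases h1 : (w : ℝ) ≤ h x i <;> by_cases h2 : (w : ℝ) ≤ h y i <;> simp [h1, h2]
  have hg : ∀ x y, l1 (g x) (g y) = s * ((1 - Real.exp (-2 * (l1 (h x) (h y) / s))) / 2) := by
    intro x y
    rw [← hD, ← parity_sep, Finset.mul_sum]
    refine Finset.sum_congr rfl fun T _ => ?_
    simp only [g]
    rw [← mul_sub, ← mul_sub, abs_mul, abs_mul, abs_of_pos hs, abs_of_nonneg (cw_nonneg hq0 hq1 T)]
  refine ⟨Finset E, inferInstance, g,
    fun x T => mul_nonneg hs.le (mul_nonneg (cw_nonneg hq0 hq1 T) (par_range _ _).1), fun x => ?_,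
    fun x y => ?_, fun x y => ?_, fun x y T => ?_⟩
  · calc ∑ T, g x T ≤ ∑ T, s * cw q T := Finset.sum_le_sum fun T _ =>
          mul_le_mul_of_nonneg_left (mul_le_of_le_one_right (cw_nonneg hq0 hq1 T) (par_range _ _).2) hs.le
      _ = s := by rw [← Finset.mul_sum, cw_total, mul_one]
  · rw [hg]
    have := Real.add_one_le_exp (-2 * (l1 (h x) (h y) / s))
    have h2 : (1 - Real.exp (-2 * (l1 (h x) (h y) / s))) / 2 ≤ l1 (h x) (h y) / s := by linarith
    calc _ ≤ s * (l1 (h x) (h y) / s) := mul_le_mul_of_nonneg_left h2 hs.le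
      _ = _ := by field_simp
  · rw [hg]
    set u := l1 (h x) (h y) / s with hu
    have hu0 : 0 ≤ u := div_nonneg (l1_nonneg _ _) hs.le
    have he : Real.exp (-2 * u) * (1 + 2 * u) ≤ 1 := by
      calc Real.exp (-2 * u) * (1 + 2 * u) ≤ Real.exp (-2 * u) * Real.exp (2 * u) :=
            mul_le_mul_of_nonneg_left (by linarith [Real.add_one_le_exp (2 * u)]) (Real.exp_pos _).le
        _ = 1 := by rw [← Real.exp_add]; norm_num
    have hmin : min (l1 (h x) (h y)) s = s * min u 1 := by
      rw [mul_min_of_nonneg _ _ hs.le, mul_one, hu]; congr 1; field_simp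
    rw [hmin, show 4 * (s * ((1 - Real.exp (-2 * u)) / 2)) = s * (2 * (1 - Real.exp (-2 * u))) by ring]
    refine mul_le_mul_of_nonneg_left ?_ hs.le
    rcases le_total u 1 with h1 | h1
    · rw [min_eq_left h1]; nlinarith [Real.exp_pos (-2 * u)]
    · rw [min_eq_right h1]; nlinarith [Real.exp_pos (-2 * u)]
  · have hv : ∀ z, par (σ z) T = 0 ∨ par (σ z) T = 1 := fun z => by
      have : (∏ e ∈ T, if σ z e then (-1 : ℝ) else 1) = 1 ∨
          (∏ e ∈ T, if σ z e then (-1 : ℝ) else 1) = -1 := par_pm _ _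
      rcases this with h | h <;> simp [par, h]
    rcases hv x with h1 | h1 <;> rcases hv y with h2 | h2 <;> simp [g, h1, h2]

end Vale.Agent.P235
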