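import Mathlib

/-! # P235: shortest-path metric of a weighted finite graph -/

open Finset

namespace Vale.Agent.P235

variable {V : Type} {G : SimpleGraph V} {ℓ : Sym2 V → ℝ}

/-- Total length of a walk. -/
def wlen (ℓ : Sym2 V → ℝ) {x y : V} (w : G.Walk x y) : ℝ := (w.edges.map ℓ).sum

/-- Shortest-path distance. -/
noncomputable def gdist (G : SimpleGraph V) (ℓ : Sym2 V → ℝ) (x y : V) : ℝ :=
  ⨅ w : G.Walk x y, wlen ℓ w

theorem wlen_nonneg (hℓ : ∀ e ∈ G.edgeSet, 0 < ℓ e) {x y : V} (w : G.Walk x y) : 0 ≤ wlen ℓ w := by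
  apply List.sum_nonneg
  intro a ha
  obtain ⟨e, he, rfl⟩ := List.mem_map.1 ha
  exact (hℓ e (w.edges_subset_edgeSet he)).le

theorem gdist_nonneg (hℓ : ∀ e ∈ G.edgeSet, 0 < ℓ e) (x y : V) : 0 ≤ gdist G ℓ x y :=
  Real.iInf_nonneg fun w => wlen_nonneg hℓ w

theorem gdist_le_wlen (hℓ : ∀ e ∈ G.edgeSet, 0 < ℓ e) {x y : V} (w : G.Walk x y) :
    gdist G ℓ x y ≤ wlen ℓ w :=
  ciInf_le ⟨0, by rintro _ ⟨w', rfl⟩; exact wlen_nonneg hℓ w'⟩ w

theorem gdist_self (hℓ : ∀ e ∈ G.edgeSet, 0 < ℓ e) (x : V) : gdist G ℓ x x = 0 := by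
  refine le_antisymm ?_ (gdist_nonneg hℓ x x)
  simpa [wlen] using gdist_le_wlen hℓ (SimpleGraph.Walk.nil : G.Walk x x)

theorem le_gdist (hG : G.Connected) {x y : V} {c : ℝ} (h : ∀ w : G.Walk x y, c ≤ wlen ℓ w) :
    c ≤ gdist G ℓ x y :=
  haveI : Nonempty (G.Walk x y) := hG x y
  le_ciInf h

theorem gdist_comm (hℓ : ∀ e ∈ G.edgeSet, 0 < ℓ e) (hG : G.Connected) (x y : V) :
    gdist G ℓ x y = gdist G ℓ y x := by
  have key : ∀ a b, gdist G ℓ a b ≤ gdist G ℓ b a := fun a b => le_gdist hG fun w => by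
    have := gdist_le_wlen hℓ w.reverse
    simpa [wlen] using this
  exact le_antisymm (key x y) (key y x)

theorem gdist_triangle (hℓ : ∀ e ∈ G.edgeSet, 0 < ℓ e) (hG : G.Connected) (x y z : V) :
    gdist G ℓ x z ≤ gdist G ℓ x y + gdist G ℓ y z := by
  have h1 : ∀ w : G.Walk x y, gdist G ℓ x z - wlen ℓ w ≤ gdist G ℓ y z := fun w =>
    le_gdist hG fun w' => by
      have := gdist_le_wlen hℓ (w.append w')
      simp only [wlen, SimpleGraph.Walk.edges_append, List.map_append, List.sum_append] at this ⊢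
      linarith
  have h2 : gdist G ℓ x z - gdist G ℓ y z ≤ gdist G ℓ x y :=
    le_gdist hG fun w => by linarith [h1 w]
  linarith

theorem gdist_le_adj (hℓ : ∀ e ∈ G.edgeSet, 0 < ℓ e) {x y : V} (h : G.Adj x y) :
    gdist G ℓ x y ≤ ℓ s(x, y) := by
  simpa [wlen] using gdist_le_wlen hℓ h.toWalk

variable {ι : Type} [Fintype ι]

/-- `ℓ₁` distance on coordinates. -/
def l1 (u v : ι → ℝ) : ℝ := ∑ i, |u i - v i|

theorem l1_triangle (a b c : ι → ℝ) : l1 a c ≤ l1 a b + l1 b c := by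
  unfold l1
  rw [← Finset.sum_add_distrib]
  exact Finset.sum_le_sum fun i _ => abs_sub_le _ _ _

theorem l1_comm (a b : ι → ℝ) : l1 a b = l1 b a :=
  Finset.sum_congr rfl fun i _ => abs_sub_comm _ _

theorem l1_nonneg (a b : ι → ℝ) : 0 ≤ l1 a b :=
  Finset.sum_nonneg fun _ _ => abs_nonneg _

theorem lip_walk {f : V → ι → ℝ} {L : ℝ} (h : ∀ u v, G.Adj u v → l1 (f u) (f v) ≤ L * ℓ s(u, v))
    {x y : V} (w : G.Walk x y) : l1 (f x) (f y) ≤ L * wlen ℓ w := by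
  induction w with
  | nil => simp [l1, wlen]
  | @cons a b c hab p ih =>
    have := l1_triangle (f a) (f b) (f c)
    have := h a b hab
    simp only [wlen, SimpleGraph.Walk.edges_cons, List.map_cons, List.sum_cons] at ih ⊢
    rw [mul_add]; linarith

theorem lip_gdist {f : V → ι → ℝ} {L : ℝ} (hG : G.Connected) (hL : 0 < L)
    (h : ∀ u v, G.Adj u v → l1 (f u) (f v) ≤ L * ℓ s(u, v)) (x y : V) :
    l1 (f x) (f y) ≤ L * gdist G ℓ x y := by
  have : l1 (f x) (f y) / L ≤ gdist G ℓ x y :=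
    le_gdist hG fun w => by rw [div_le_iff₀ hL, mul_comm]; exact lip_walk h w
  rwa [div_le_iff₀ hL, mul_comm] at this

end Vale.Agent.P235
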