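import Vale.Agent.P235.Main

/-! # P235: extending an embedding of the core to pieces with few attachments -/

open Finset

namespace Vale.Agent.P235

variable {V : Type} [Fintype V] {G : SimpleGraph V} {ℓ : Sym2 V → ℝ}

theorem gdist_pos (hG : G.Connected) (hℓ : ∀ e ∈ G.edgeSet, 0 < ℓ e) {x y : V} (hxy : x ≠ y) :
    0 < gdist G ℓ x y := by
  classical
  set N := (univ.filter fun z => G.Adj x z)
  have hN : N.Nonempty := by
    obtain ⟨w⟩ := hG x y
    cases w with
    | nil => exact absurd rfl hxy
    | cons h p => exact ⟨_, Finset.mem_filter.2 ⟨Finset.mem_univ _, h⟩⟩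
  have hc : 0 < N.inf' hN (fun z => ℓ s(x, z)) :=
    (Finset.lt_inf'_iff hN).2 fun z hz => hℓ s(x, z) (Finset.mem_filter.1 hz).2
  refine lt_of_lt_of_le hc (le_gdist hG fun w => ?_)
  cases w with
  | nil => exact absurd rfl hxy
  | cons h p =>
    have h1 := wlen_nonneg hℓ p
    have h2 : N.inf' hN (fun z => ℓ s(x, z)) ≤ _ :=
      Finset.inf'_le (fun z => ℓ s(x, z)) (Finset.mem_filter.2 ⟨Finset.mem_univ _, h⟩)
    simp only [wlen, SimpleGraph.Walk.edges_cons, List.map_cons, List.sum_cons] at h1 ⊢
    linarith

/-- The attachments of the component of `x`. -/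
noncomputable def att (G : SimpleGraph V) (A : Finset V) (x : V) : Finset V := by
  classical exact A.filter fun a => ∃ y, (avoid G A).Reachable x y ∧ G.Adj y a

theorem att_subset (A : Finset V) (x : V) : att G A x ⊆ A := by
  classical exact Finset.filter_subset _ _

theorem att_congr {A : Finset V} {x y : V} (h : (avoid G A).Reachable x y) :
    att G A x = att G A y := by
  classical
  ext a
  simp only [att, Finset.mem_filter]
  exact and_congr_right fun _ =>
    ⟨fun ⟨z, hz, ha⟩ => ⟨z, h.symm.trans hz, ha⟩, fun ⟨z, hz, ha⟩ => ⟨z, h.trans hz, ha⟩⟩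

theorem walk_exit (hℓ : ∀ e ∈ G.edgeSet, 0 < ℓ e) {A : Finset V} {x a : V} (w : G.Walk x a) :
    x ∉ A → a ∈ A → ∃ b ∈ att G A x, gdist G ℓ x b ≤ wlen ℓ w := by
  classical
  induction w with
  | nil => exact fun hx ha => absurd ha hx
  | @cons u v c h p ih =>
    intro hu hc
    have hp := wlen_nonneg hℓ p
    by_cases hv : v ∈ A
    · refine ⟨v, Finset.mem_filter.2 ⟨hv, u, .refl _, h⟩, ?_⟩
      have := gdist_le_adj hℓ h
      simp only [wlen, SimpleGraph.Walk.edges_cons, List.map_cons, List.sum_cons] at hp ⊢
      linarith
    · obtain ⟨b, hb, hd⟩ := ih hv hc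
      refine ⟨b, ?_, ?_⟩
      · rw [att_congr (SimpleGraph.Adj.reachable (⟨h, hu, hv⟩ : (avoid G A).Adj u v))]
        exact hb
      · have hne : Nonempty (G.Walk u b) := by
          obtain ⟨hbA, z, hz, hzb⟩ := Finset.mem_filter.1 hb
          exact ⟨(SimpleGraph.Walk.cons h (hz.some.mapLe (avoid_le G A))).append hzb.toWalk⟩
        obtain ⟨q⟩ := hne
        have hG' : gdist G ℓ u b ≤ ℓ s(u, v) + gdist G ℓ v b := by
          have hkey : ∀ q : G.Walk v b, gdist G ℓ u b - ℓ s(u, v) ≤ wlen ℓ q := fun q => by
            have := gdist_le_wlen hℓ (SimpleGraph.Walk.cons h q)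
            simp only [wlen, SimpleGraph.Walk.edges_cons, List.map_cons, List.sum_cons] at this ⊢
            linarith
          haveI : Nonempty (G.Walk v b) := ⟨h.symm.toWalk.append q⟩
          have : gdist G ℓ u b - ℓ s(u, v) ≤ gdist G ℓ v b := le_ciInf hkey
          linarith
        simp only [wlen, SimpleGraph.Walk.edges_cons, List.map_cons, List.sum_cons] at hd ⊢
        linarith

variable {ι : Type} [Fintype ι]

/-- A Lipschitz extension to all vertices, with constant linear in the number of attachments. -/
theorem exists_extension [DecidableEq V] (hG : G.Connected) (hℓ : ∀ e ∈ G.edgeSet, 0 < ℓ e)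
    {A : Finset V} (hA : A.Nonempty) {k : ℕ} (hk : ∀ x, x ∉ A → (att G A x).card ≤ k)
    (g : V → ι → ℝ) (hg : ∀ a ∈ A, ∀ b ∈ A, l1 (g a) (g b) ≤ gdist G ℓ a b) :
    ∃ B : V → ι → ℝ, (∀ u v, G.Adj u v → l1 (B u) (B v) ≤ (30 * k + 15 : ℝ) * ℓ s(u, v)) ∧
      ∀ x, ∀ a ∈ A, gdist G ℓ x a ≤ dset (gdist G ℓ) A x →
        l1 (B x) (g a) ≤ 3 * dset (gdist G ℓ) A x := by
  classical
  set d := gdist G ℓ
  have hd0 : ∀ x, d x x = 0 := gdist_self hℓ
  have hcomm : ∀ x y, d x y = d y x := gdist_comm hℓ hG
  have htri : ∀ x y z, d x z ≤ d x y + d y z := gdist_triangle hℓ hG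
  have hnn : ∀ x y, 0 ≤ d x y := gdist_nonneg hℓ
  set r : V → ℝ := dset d A
  have hr_eq : ∀ x, r x = A.inf' hA (fun s => d x s) := fun x => dif_pos hA
  have hrle : ∀ x, ∀ a ∈ A, r x ≤ d x a := fun x a ha => by
    rw [hr_eq]; exact Finset.inf'_le (fun s => d x s) ha
  have hrpos : ∀ x, x ∉ A → 0 < r x := fun x hx => by
    rw [hr_eq]
    exact (Finset.lt_inf'_iff hA).2 fun s hs => gdist_pos hG hℓ (fun h => hx (h ▸ hs))
  have hex : ∀ x, x ∉ A → ∃ b ∈ att G A x, d x b ≤ r x := by
    intro x hx
    obtain ⟨a, ha, hax⟩ := Finset.exists_mem_eq_inf' hA (fun s => d x s)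
    rw [← hr_eq] at hax
    by_contra hcon
    push Not at hcon
    obtain ⟨w₀⟩ := hG x a
    obtain ⟨b₀, hb₀, _⟩ := walk_exit hℓ w₀ hx ha
    have hne : (att G A x).Nonempty := ⟨b₀, hb₀⟩
    obtain ⟨b', hb', heq⟩ := Finset.exists_mem_eq_inf' hne (fun s => d x s)
    have hlow : d x b' ≤ d x a := le_gdist hG fun w => by
      obtain ⟨b, hb, hd⟩ := walk_exit hℓ w hx ha
      have : (att G A x).inf' hne (fun s => d x s) ≤ d x b := Finset.inf'_le (fun s => d x s) hb
      exact le_trans (heq ▸ this) hd
    have := hcon b' hb'
    linarith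
  let u : V → V → ℝ := fun x b => max 0 (2 * r x - d x b)
  let S : V → ℝ := fun x => ∑ b ∈ att G A x, u x b
  let B : V → ι → ℝ := fun x => if x ∈ A then g x else fun i => (∑ b ∈ att G A x, u x b * g b i) / S x
  have hu0 : ∀ x b, 0 ≤ u x b := fun x b => le_max_left _ _
  have hS : ∀ x, x ∉ A → r x ≤ S x := by
    intro x hx
    obtain ⟨b, hb, hbd⟩ := hex x hx
    refine le_trans ?_ (Finset.single_le_sum (fun c _ => hu0 x c) hb)
    exact le_trans (by linarith) (le_max_right _ _)
  have hact : ∀ x b, u x b ≠ 0 → d x b ≤ 2 * r x := by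
    intro x b hb
    by_contra hc
    exact hb (max_eq_left (by linarith [not_le.1 hc]))
  have hcomb : ∀ (T : Finset V) (c : V → ℝ) (a : V) (f : ι → ℝ) (R : ℝ), T ⊆ A → a ∈ A →
      (∀ i, f i = ∑ b ∈ T, c b * (g b i - g a i)) → (∀ b ∈ T, c b ≠ 0 → d b a ≤ R) →
      ∑ i, |f i| ≤ (∑ b ∈ T, |c b|) * R := by
    intro T c a f R hT ha hf hR
    calc ∑ i, |f i| ≤ ∑ i, ∑ b ∈ T, |c b| * |g b i - g a i| := Finset.sum_le_sum fun i _ => by
          rw [hf]
          exact (Finset.abs_sum_le_sum_abs _ _).trans
            (le_of_eq (Finset.sum_congr rfl fun b _ => abs_mul _ _))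
      _ = ∑ b ∈ T, |c b| * l1 (g b) (g a) := by
          rw [Finset.sum_comm]; simp only [l1, Finset.mul_sum]
      _ ≤ ∑ b ∈ T, |c b| * R := Finset.sum_le_sum fun b hb => by
          by_cases h0 : c b = 0
          · simp [h0]
          · exact mul_le_mul_of_nonneg_left ((hg b (hT hb) a ha).trans (hR b hb h0)) (abs_nonneg _)
      _ = _ := by rw [Finset.sum_mul]
  have hnear : ∀ x, x ∉ A → ∀ a ∈ A, l1 (B x) (g a) ≤ 2 * r x + d x a := by
    intro x hx a ha
    have hSpos : 0 < S x := (hrpos x hx).trans_le (hS x hx)
    have h := hcomb (att G A x) (fun b => u x b / S x) a (fun i => B x i - g a i)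
      (2 * r x + d x a) (att_subset A x) ha ?_ ?_
    · have h1 : ∑ b ∈ att G A x, |u x b / S x| = 1 := by
        simp only [abs_div, abs_of_nonneg (hu0 x _), abs_of_pos hSpos]
        rw [← Finset.sum_div, div_self hSpos.ne']
      rw [h1, one_mul] at h
      exact h
    · intro i
      have he : ∀ b, u x b / S x * (g b i - g a i) = u x b * g b i / S x - u x b / S x * g a i :=
        fun b => by ring
      simp only [he, Finset.sum_sub_distrib, ← Finset.sum_div, ← Finset.sum_mul]
      simp only [B, if_neg hx]
      rw [div_self hSpos.ne', one_mul]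
    · intro b _ hb
      have hb' : u x b ≠ 0 := fun h => hb (by simp [h])
      have := hact x b hb'
      have := htri b x a
      rw [hcomm b x] at this
      linarith
  refine ⟨B, fun x y hxy => ?_, fun x a ha hax => ?_⟩
  · have hlpos := hℓ s(x, y) hxy
    have hle := gdist_le_adj hℓ hxy
    have hkey : ∀ p q, G.Adj p q → p ∈ A → q ∉ A → l1 (B p) (B q) ≤ 15 * ℓ s(p, q) := by
      intro p q hpq hp hq
      have h1 := hnear q hq p hp
      have h2 := hrle q p hp
      have h3 := gdist_le_adj hℓ hpq
      rw [hcomm q p] at h1 h2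
      rw [l1_comm, show B p = g p from if_pos hp]
      have := hℓ s(p, q) hpq
      linarith
    have hk0 : (0 : ℝ) ≤ k := Nat.cast_nonneg k
    by_cases hx : x ∈ A
    · by_cases hy : y ∈ A
      · rw [show B x = g x from if_pos hx, show B y = g y from if_pos hy]
        have := (hg x hx y hy).trans hle
        nlinarith
      · have := hkey x y hxy hx hy
        nlinarith
    · by_cases hy : y ∈ A
      · have := hkey y x hxy.symm hy hx
        rw [l1_comm, Sym2.eq_swap] at this
        nlinarith
      · obtain ⟨b₀, hb₀, hbd⟩ := hex x hx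
        have hb₀A := att_subset A x hb₀
        have hry : r y ≤ r x + ℓ s(x, y) := by
          have := (abs_le.1 ((dset_lip htri hcomm hd0 A x y).trans hle)).1
          linarith
        have hrx : r x ≤ r y + ℓ s(x, y) := by
          have := (abs_le.1 ((dset_lip htri hcomm hd0 A x y).trans hle)).2
          linarith
        have hyb : d y b₀ ≤ ℓ s(x, y) + r x := by
          have := htri y x b₀
          rw [hcomm y x] at this
          linarith
        by_cases hsmall : r x ≤ 2 * ℓ s(x, y)
        · have h1 := hnear x hx b₀ hb₀A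
          have h2 := hnear y hy b₀ hb₀A
          have h3 := l1_triangle (B x) (g b₀) (B y)
          rw [l1_comm (g b₀) (B y)] at h3
          nlinarith
        · have hK : (avoid G A).Reachable x y :=
            SimpleGraph.Adj.reachable (⟨hxy, hx, hy⟩ : (avoid G A).Adj x y)
          have hatt : att G A y = att G A x := (att_congr hK).symm
          have hSx : 0 < S x := (hrpos x hx).trans_le (hS x hx)
          have hSy : 0 < S y := (hrpos y hy).trans_le (hS y hy)
          have h := hcomb (att G A x) (fun b => u x b / S x - u y b / S y) b₀ (fun i => B x i - B y i)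
            (5 * r x) (att_subset A x) hb₀A ?_ ?_
          · refine h.trans ?_
            have hdu : ∀ b, |u x b - u y b| ≤ 3 * ℓ s(x, y) := by
              intro b
              refine (abs_max_sub_max_le_max 0 _ 0 _).trans (max_le (by simp; linarith) ?_)
              have h1 := htri x y b
              have h2 := htri y x b
              rw [hcomm y x] at h2
              rw [abs_le]; constructor <;> linarith
            have hΔ : ∑ b ∈ att G A x, |u x b - u y b| ≤ k * (3 * ℓ s(x, y)) := by
              refine (Finset.sum_le_card_nsmul _ _ _ fun b _ => hdu b).trans ?_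
              rw [nsmul_eq_mul]
              exact mul_le_mul_of_nonneg_right (by exact_mod_cast hk x hx) (by linarith)
            have hSS : |S x - S y| ≤ ∑ b ∈ att G A x, |u x b - u y b| := by
              simp only [S, hatt, ← Finset.sum_sub_distrib]
              exact Finset.abs_sum_le_sum_abs _ _
            have hsum : ∑ b ∈ att G A x, |u x b / S x - u y b / S y| ≤
                2 * (k * (3 * ℓ s(x, y))) / r x := by
              calc ∑ b ∈ att G A x, |u x b / S x - u y b / S y|
                  ≤ ∑ b ∈ att G A x, (|u x b - u y b| / S x + u y b * (|S x - S y| / (S x * S y))) :=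
                    Finset.sum_le_sum fun b _ => by
                      have e : u x b / S x - u y b / S y =
                          (u x b - u y b) / S x + u y b * ((S y - S x) / (S x * S y)) := by
                        field_simp; ring
                      rw [e]
                      refine (abs_add_le _ _).trans (le_of_eq ?_)
                      rw [abs_div, abs_of_pos hSx, abs_mul, abs_of_nonneg (hu0 y b), abs_div,
                        abs_of_pos (mul_pos hSx hSy), abs_sub_comm (S y) (S x)]
                _ = (∑ b ∈ att G A x, |u x b - u y b|) / S x + S y * (|S x - S y| / (S x * S y)) := by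
                    rw [Finset.sum_add_distrib, ← Finset.sum_div, ← Finset.sum_mul]
                    simp only [S, hatt]
                _ = ((∑ b ∈ att G A x, |u x b - u y b|) + |S x - S y|) / S x := by
                    field_simp
                _ ≤ (2 * (k * (3 * ℓ s(x, y)))) / r x :=
                    div_le_div₀ (by positivity) (by linarith) (hrpos x hx) (hS x hx)
            calc (∑ b ∈ att G A x, |u x b / S x - u y b / S y|) * (5 * r x)
                ≤ 2 * (k * (3 * ℓ s(x, y))) / r x * (5 * r x) :=
                  mul_le_mul_of_nonneg_right hsum (by linarith [hrpos x hx])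
              _ = 30 * k * ℓ s(x, y) := by field_simp [(hrpos x hx).ne']; ring
              _ ≤ _ := by nlinarith
          · intro i
            have hone : ∀ z, 0 < S z → ∀ c : ℝ, (∑ b ∈ att G A z, u z b / S z * c) = c := by
              intro z hz c
              rw [← Finset.sum_mul, ← Finset.sum_div, div_self hz.ne', one_mul]
            have e1 := hone x hSx (g b₀ i)
            have e2 := hone y hSy (g b₀ i)
            rw [hatt] at e2
            simp only [sub_mul, mul_sub, Finset.sum_sub_distrib, e1, e2]
            simp only [B, if_neg hx, if_neg hy, hatt, Finset.sum_div, div_mul_eq_mul_div]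
            ring
          · intro b _ hb
            have h1 : u x b ≠ 0 ∨ u y b ≠ 0 := by
              by_contra hc
              push Not at hc
              exact hb (by simp [hc.1, hc.2])
            rcases h1 with h1 | h1
            · have := hact x b h1
              have := htri b x b₀
              rw [hcomm b x] at this
              linarith
            · have := hact y b h1
              have := htri b y b₀
              rw [hcomm b y] at this
              linarith
  · by_cases hx : x ∈ A
    · rw [show B x = g x from if_pos hx]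
      have := (hg x hx a ha).trans hax
      have : (0 : ℝ) ≤ dset d A x := le_trans (hnn x a) hax
      linarith
    · have := hnear x hx a ha
      show l1 (B x) (g a) ≤ 3 * r x
      linarith

end Vale.Agent.P235
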