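import Vale.Agent.P235.Dist

/-! # P235: forests in `ℓ₁` -/

open Finset

namespace Vale.Agent.P235

variable {V : Type} {K : SimpleGraph V} {ℓ : Sym2 V → ℝ}

/-- The edge-indicator coordinates of a walk. -/
noncomputable def ecoord (ℓ : Sym2 V → ℝ) {x r : V} (p : K.Walk x r) (e : Sym2 V) : ℝ := by
  classical exact if e ∈ p.edges then ℓ e else 0

theorem ecoord_cons [Fintype V] [DecidableEq V] {x x' r : V} (hx : K.Adj x x') (p : K.Walk x' r)
    (hp : (SimpleGraph.Walk.cons hx p).IsPath) (e : Sym2 V) :
    ecoord ℓ (SimpleGraph.Walk.cons hx p) e = ecoord ℓ p e + (if e = s(x, x') then ℓ e else 0) := by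
  have hnd := hp.edges_nodup
  simp only [SimpleGraph.Walk.edges_cons, List.nodup_cons] at hnd
  unfold ecoord
  by_cases he : e = s(x, x')
  · subst he; simp [hnd.1]
  · simp [he]

theorem path_pair [Fintype V] [DecidableEq V] (hK : K.IsAcyclic) (hℓ : ∀ e ∈ K.edgeSet, 0 < ℓ e) :
    ∀ {x r : V} (p : K.Walk x r), p.IsPath → ∀ {y : V} (q : K.Walk y r), q.IsPath →
      ∃ w : K.Walk x y, wlen ℓ w ≤ ∑ e : Sym2 V, |ecoord ℓ p e - ecoord ℓ q e| := by
  have base : ∀ {x r : V} (p : K.Walk x r), p.IsPath → ∀ {y : V} (q : K.Walk y r), q.IsPath →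
      x ∈ q.support → ∃ w : K.Walk x y, wlen ℓ w ≤ ∑ e : Sym2 V, |ecoord ℓ p e - ecoord ℓ q e| := by
    intro x r p hp y q hq hx
    have hdrop : q.dropUntil x hx = p := congrArg Subtype.val
      (hK.path_unique (⟨_, hq.dropUntil hx⟩ : K.Path x r) ⟨p, hp⟩)
    have hspec : (q.takeUntil x hx).append p = q := by
      rw [← hdrop]; exact q.take_spec hx
    refine ⟨(q.takeUntil x hx).reverse, ?_⟩
    set a := q.takeUntil x hx
    have hnd := hq.edges_nodup
    rw [← hspec, SimpleGraph.Walk.edges_append, List.nodup_append] at hnd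
    have hlen : wlen ℓ a.reverse = ∑ e : Sym2 V, if e ∈ a.edges then ℓ e else 0 := by
      rw [wlen, SimpleGraph.Walk.edges_reverse, List.map_reverse, List.sum_reverse,
        ← List.sum_toFinset _ hnd.1]
      rw [← Finset.sum_filter]
      refine Finset.sum_congr ?_ fun _ _ => rfl
      ext e; simp
    rw [hlen]
    refine Finset.sum_le_sum fun e _ => ?_
    by_cases he : e ∈ a.edges
    · have hep : e ∉ p.edges := fun h => hnd.2.2 e he e h rfl
      have heq : e ∈ q.edges := by rw [← hspec]; simp [he]
      simp only [ecoord, if_pos he, if_neg hep, if_pos heq, zero_sub, abs_neg]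
      exact le_abs_self _
    · rw [if_neg he]; exact abs_nonneg _
  intro x r p
  induction p with
  | nil => exact fun hp y q hq => base _ hp q hq q.end_mem_support
  | @cons x x' r hadj p ih =>
    intro hp y q hq
    by_cases hx : x ∈ q.support
    · exact base _ hp q hq hx
    · obtain ⟨w, hw⟩ := ih hp.of_cons q hq
      refine ⟨SimpleGraph.Walk.cons hadj w, ?_⟩
      have heq : s(x, x') ∉ q.edges := fun h => hx (q.fst_mem_support_of_mem_edges h)
      have hep : s(x, x') ∉ p.edges := by
        have hnd := hp.edges_nodup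
        simp only [SimpleGraph.Walk.edges_cons, List.nodup_cons] at hnd
        exact hnd.1
      have hterm : ∀ e, |ecoord ℓ (SimpleGraph.Walk.cons hadj p) e - ecoord ℓ q e| =
          |ecoord ℓ p e - ecoord ℓ q e| + (if e = s(x, x') then ℓ e else 0) := by
        intro e
        rw [ecoord_cons hadj p hp e]
        by_cases he : e = s(x, x')
        · subst he
          simp [ecoord, hep, heq, abs_of_pos (hℓ s(x, x') hadj)]
        · simp [he]
      simp only [hterm, Finset.sum_add_distrib, Finset.sum_ite_eq', Finset.mem_univ, if_true]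
      simp only [wlen, SimpleGraph.Walk.edges_cons, List.map_cons, List.sum_cons] at hw ⊢
      linarith

/-- A weighted forest embeds in `ℓ₁`, isometrically on each component. -/
theorem forest_embedding [Fintype V] [DecidableEq V] (hK : K.IsAcyclic)
    (hℓ : ∀ e ∈ K.edgeSet, 0 < ℓ e) :
    ∃ h : V → Sym2 V → ℝ, (∀ u v, K.Adj u v → l1 (h u) (h v) ≤ ℓ s(u, v)) ∧
      ∀ x y, K.Reachable x y → ∃ w : K.Walk x y, wlen ℓ w ≤ l1 (h x) (h y) := by
  let root : V → V := fun x => (K.connectedComponentMk x).out
  have hroot : ∀ x, K.Reachable x (root x) := fun x =>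
    (SimpleGraph.ConnectedComponent.eq.1 (Quot.out_eq (K.connectedComponentMk x))).symm
  have hP : ∀ x, ∃ p : K.Walk x (root x), p.IsPath := fun x => (hroot x).exists_isPath
  choose P hP using hP
  refine ⟨fun x => ecoord ℓ (P x), fun u v huv => ?_, fun x y hxy => ?_⟩
  · have hr : root v = root u := by
      simp only [root, SimpleGraph.ConnectedComponent.eq.2 huv.reachable]
    have key : ∀ a b (hab : K.Adj a b) (p : K.Walk a (root u)) (q : K.Walk b (root u)),
        p.IsPath → q.IsPath → a ∉ q.support →
        l1 (ecoord ℓ p) (ecoord ℓ q) ≤ ℓ s(a, b) := by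
      intro a b hab p q hp hq ha
      have hcq : (SimpleGraph.Walk.cons hab q).IsPath := hq.cons ha
      have : p = SimpleGraph.Walk.cons hab q :=
        congrArg Subtype.val (hK.path_unique (⟨p, hp⟩ : K.Path a (root u)) ⟨_, hcq⟩)
      subst this
      simp only [l1, ecoord_cons hab q hcq, add_sub_cancel_left]
      rw [Finset.sum_eq_single s(a, b) (fun e _ he => by simp [he]) (by simp), if_pos rfl]
      exact le_of_eq (abs_of_pos (hℓ s(a, b) hab))
    set q : K.Walk v (root u) := (P v).copy rfl hr
    have hq : q.IsPath := by simpa [q] using hP v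
    have heq : ecoord ℓ q = ecoord ℓ (P v) := by
      funext e; simp [ecoord, q]
    show l1 (ecoord ℓ (P u)) (ecoord ℓ (P v)) ≤ _
    rw [← heq]
    by_cases hu : u ∈ q.support
    · have hv : v ∉ (P u).support := by
        intro hv
        have h1 := congrArg Subtype.val
          (hK.path_unique (⟨_, hq.dropUntil hu⟩ : K.Path u (root u)) ⟨_, hP u⟩)
        have h2 : (P u).length ≤ q.length := by
          simp only [] at h1; rw [← h1]; exact q.length_dropUntil_le hu
        have h3 := congrArg Subtype.val
          (hK.path_unique (⟨_, (hP u).dropUntil hv⟩ : K.Path v (root u)) ⟨_, hq⟩)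
        have h4 : q.length ≤ (P u).length := by
          simp only [] at h3; rw [← h3]; exact (P u).length_dropUntil_le hv
        have h5 := congrArg SimpleGraph.Walk.length (q.take_spec hu)
        rw [SimpleGraph.Walk.length_append] at h5
        have h6 : (q.takeUntil u hu).length = 0 := by
          simp only [] at h1
          rw [h1] at h5; omega
        exact huv.ne (SimpleGraph.Walk.eq_of_length_eq_zero h6).symm
      rw [l1_comm, Sym2.eq_swap]
      exact key v u huv.symm q (P u) hq (hP u) hv
    · exact key u v huv (P u) q (hP u) hq hu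
  · have hr : root y = root x := by
      simp only [root, SimpleGraph.ConnectedComponent.eq.2 hxy]
    obtain ⟨w, hw⟩ := path_pair hK hℓ (P x) (hP x) ((P y).copy rfl hr) (by simpa using hP y)
    refine ⟨w, hw.trans (le_of_eq ?_)⟩
    refine Finset.sum_congr rfl fun e _ => ?_
    simp only [ecoord, SimpleGraph.Walk.edges_copy]
    by_cases h : e ∈ (P y).edges <;> simp [h]

end Vale.Agent.P235
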