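import Vale.Agent.P235.Bourgain
import Vale.Agent.P235.Clip
import Vale.Agent.P235.Forest

/-! # P235: adding `k` vertices to a family costs only `O(log k)` in `ℓ₁` distortion -/

open Finset

namespace Vale.Agent.P235

variable {V : Type} [Fintype V] {G : SimpleGraph V} {ℓ : Sym2 V → ℝ}

/-- `G` without the edges at `A`. -/
def avoid (G : SimpleGraph V) (A : Finset V) : SimpleGraph V where
  Adj u v := G.Adj u v ∧ u ∉ A ∧ v ∉ A
  symm := ⟨fun _ _ h => ⟨h.1.symm, h.2.2, h.2.1⟩⟩
  loopless := ⟨fun _ h => G.irrefl h.1⟩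

theorem avoid_le (G : SimpleGraph V) (A : Finset V) : avoid G A ≤ G := fun _ _ h => h.1

theorem avoid_support {A : Finset V} {x y : V} (hx : x ∉ A) (w : (avoid G A).Walk x y) :
    ∀ v ∈ w.support, v ∉ A := by
  induction w with
  | nil => simpa using hx
  | cons h p ih =>
    intro v hv
    rcases List.mem_cons.1 hv with rfl | hv
    · exact hx
    · exact ih h.2.2 v hv

theorem avoid_acyclic {A : Finset V} (h : (G.induce {v | v ∉ A}).IsAcyclic) :
    (avoid G A).IsAcyclic := by
  intro u c hc
  have hu : u ∉ A := by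
    cases c with
    | nil => exact absurd rfl hc.ne_nil
    | cons h p => exact h.2.1
  have hsup := avoid_support hu c
  set c' := c.mapLe (avoid_le G A)
  have hs' : ∀ v ∈ c'.support, v ∈ ({v | v ∉ A} : Set V) := by
    intro v hv
    simp only [c', SimpleGraph.Walk.support_map, List.mem_map] at hv
    obtain ⟨v', hv', rfl⟩ := hv
    exact hsup v' hv'
  refine h (c'.induce _ hs') ?_
  apply SimpleGraph.Walk.IsCycle.of_map (f := (SimpleGraph.Embedding.induce _).toHom)
  rw [SimpleGraph.Walk.map_induce]
  exact hc.mapLe (avoid_le G A)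

theorem natLog_le (k : ℕ) (hk : 0 < k) : (Nat.log 2 k : ℝ) ≤ 2 * Real.log k := by
  have h := Nat.pow_log_le_self 2 hk.ne'
  have h1 : Real.log ((2 : ℝ) ^ Nat.log 2 k) ≤ Real.log k :=
    Real.log_le_log (by positivity) (by exact_mod_cast h)
  rw [Real.log_pow] at h1
  have := Real.log_two_gt_d9
  nlinarith [Nat.cast_nonneg (α := ℝ) (Nat.log 2 k)]

/-- The combination theorem. -/
theorem apex_embedding [DecidableEq V] (hG : G.Connected) (hℓ : ∀ e ∈ G.edgeSet, 0 < ℓ e)
    {A : Finset V} (hA : A.Nonempty) {β : ℝ} (hβ : 1 ≤ β) {ι : Type} [Fintype ι] (h : V → ι → ℝ)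
    (hlip : ∀ u v, G.Adj u v → u ∉ A → v ∉ A → l1 (h u) (h v) ≤ ℓ s(u, v))
    (hlow : ∀ x y, x ∉ A → (avoid G A).Reachable x y → gdist G ℓ x y ≤ β * l1 (h x) (h y)) :
    ∃ (N : ℕ) (f : V → Fin N → ℝ), ∀ x y, gdist G ℓ x y ≤ ∑ i, |f x i - f y i| ∧
      ∑ i, |f x i - f y i| ≤ 500000 * (β + Real.log A.card + 1) * gdist G ℓ x y := by
  classical
  set d := gdist G ℓ
  have hd0 : ∀ x, d x x = 0 := gdist_self hℓ
  have hcomm : ∀ x y, d x y = d y x := gdist_comm hℓ hG
  have htri : ∀ x y z, d x z ≤ d x y + d y z := gdist_triangle hℓ hG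
  have hnn : ∀ x y, 0 ≤ d x y := gdist_nonneg hℓ
  set r : V → ℝ := dset d A with hr
  have hr_eq : ∀ x, r x = A.inf' hA (fun s => d x s) := fun x => dif_pos hA
  have hrnn : ∀ x, 0 ≤ r x := fun x => by
    rw [hr_eq]; exact Finset.le_inf' _ _ fun s _ => hnn x s
  have hrA : ∀ x ∈ A, r x = 0 := fun x hx => le_antisymm
    (by rw [hr_eq]; exact (Finset.inf'_le _ hx).trans (hd0 x).le) (hrnn x)
  have hrlip : ∀ u v, G.Adj u v → |r u - r v| ≤ ℓ s(u, v) := fun u v huv =>
    (dset_lip htri hcomm hd0 A u v).trans (gdist_le_adj hℓ huv)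
  obtain ⟨κ, _, Q, hQ0, hQn, hQlip, hQlow⟩ := exists_clip h r
  set K := avoid G A
  haveI : Fintype K.ConnectedComponent := Fintype.ofFinite _
  let F : V → K.ConnectedComponent → ℝ := fun x c => if c = K.connectedComponentMk x then r x else 0
  have hFsame : ∀ x y, K.Reachable x y → l1 (F x) (F y) = |r x - r y| := fun x y hxy => by
    have e := SimpleGraph.ConnectedComponent.eq.2 hxy
    simp only [l1, F, e]
    rw [Finset.sum_eq_single (K.connectedComponentMk y) (fun c _ hc => by simp [hc]) (by simp)]
    simp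
  have hFdiff : ∀ x y, ¬ K.Reachable x y → l1 (F x) (F y) = r x + r y := fun x y hxy => by
    have e : K.connectedComponentMk x ≠ K.connectedComponentMk y :=
      fun h => hxy (SimpleGraph.ConnectedComponent.eq.1 h)
    simp only [l1, F]
    rw [Finset.sum_eq_add (K.connectedComponentMk x) (K.connectedComponentMk y) e
      (fun c _ hc => by simp [hc.1, hc.2]) (by simp) (by simp)]
    simp [e, e.symm, abs_of_nonneg (hrnn x), abs_of_nonneg (hrnn y)]
  set m := Nat.log 2 A.card + 1
  have hm : (0 : ℝ) < m := by positivity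
  let B : V → (Fin m × A.powerset) → ℝ :=
    fun x p => mu ((1 / 2) ^ (p.1.1 + 1)) A p.2.1 / m * dset d p.2.1 x
  have hmu : ∀ (j : ℕ) (T : Finset V), 0 ≤ mu ((1 / 2 : ℝ) ^ (j + 1)) A T := fun j T =>
    mu_nonneg (by positivity) (pow_le_one₀ (by norm_num) (by norm_num)) _ _
  have hBeq : ∀ x y, l1 (B x) (B y) = (∑ j ∈ range m, ∑ T ∈ A.powerset,
      mu ((1 / 2) ^ (j + 1)) A T * |dset d T x - dset d T y|) / m := by
    intro x y
    rw [l1, Fintype.sum_prod_type, Finset.sum_div, ← Fin.sum_univ_eq_sum_range]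
    refine Finset.sum_congr rfl fun j _ => ?_
    rw [Finset.sum_div, ← Finset.sum_coe_sort A.powerset]
    refine Finset.sum_congr rfl fun T _ => ?_
    simp only [B]
    rw [← mul_sub, abs_mul, abs_of_nonneg (div_nonneg (hmu _ _) hm.le)]
    ring
  have hBlip : ∀ x y, l1 (B x) (B y) ≤ d x y := by
    intro x y
    rw [hBeq, div_le_iff₀ hm]
    calc _ ≤ ∑ j ∈ range m, ∑ T ∈ A.powerset, mu ((1 / 2) ^ (j + 1)) A T * d x y :=
          Finset.sum_le_sum fun j _ => Finset.sum_le_sum fun T _ =>
            mul_le_mul_of_nonneg_left (dset_lip htri hcomm hd0 T x y) (hmu _ _)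
      _ = d x y * m := by
          simp only [← Finset.sum_mul, mu_total, Finset.sum_const, Finset.card_range, nsmul_eq_mul]
          ring
  set α : ℝ := 24 * m with hα
  have hα1 : 1 ≤ α := by
    have : (1 : ℝ) ≤ m := by exact_mod_cast (Nat.le_add_left 1 _)
    linarith
  have hmain : ∀ x y, d x y ≤ (1 + α) * (r x + r y) + α * l1 (B x) (B y) := by
    intro x y
    obtain ⟨a, ha, hax⟩ := Finset.exists_mem_eq_inf' hA (fun s => d x s)
    obtain ⟨b, hb, hby⟩ := Finset.exists_mem_eq_inf' hA (fun s => d y s)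
    rw [← hr_eq] at hax hby
    have h1 : d a b ≤ α * l1 (B a) (B b) := by
      have hb2 := bourgain_lower hcomm htri hd0 ha hb
      rw [hBeq, hα]
      calc d a b ≤ 24 * _ := by linarith [hb2]
        _ = _ := by
          simp only [m]; field_simp
    have h2 : l1 (B a) (B b) ≤ r x + l1 (B x) (B y) + r y := by
      have := l1_triangle (B a) (B x) (B b)
      have := l1_triangle (B x) (B y) (B b)
      have h3 := hBlip a x
      have h4 := hBlip y b
      rw [hcomm a x] at h3
      linarith
    have h5 := htri x a y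
    have h6 := htri a b y
    rw [hcomm b y] at h6
    nlinarith
  set W : ℝ := 200 * (β + α) with hW
  have hW0 : 0 < W := by rw [hW]; linarith
  let ν := K.ConnectedComponent ⊕ κ ⊕ (Fin m × A.powerset)
  let f0 : V → ν → ℝ := fun x => Sum.elim (fun c => W * F x c)
    (Sum.elim (fun k => W * Q x k) (fun p => W * B x p))
  let eqv := Fintype.equivFin ν
  refine ⟨Fintype.card ν, fun x i => f0 x (eqv.symm i), fun x y => ?_⟩
  have hl : ∀ x y, ∑ i, |f0 x (eqv.symm i) - f0 y (eqv.symm i)| =
      W * (l1 (F x) (F y) + l1 (Q x) (Q y) + l1 (B x) (B y)) := by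
    intro x y
    rw [Equiv.sum_comp eqv.symm fun i => |f0 x i - f0 y i|, Fintype.sum_sum_type, Fintype.sum_sum_type]
    simp only [f0, Sum.elim_inl, Sum.elim_inr, ← mul_sub, abs_mul, abs_of_pos hW0, ← Finset.mul_sum,
      l1]
    ring
  refine ⟨?_, ?_⟩
  · rw [hl]
    have hF := l1_nonneg (F x) (F y)
    have hQ := l1_nonneg (Q x) (Q y)
    have hB := l1_nonneg (B x) (B y)
    suffices hsuff : d x y ≤ 100 * (β + α) * (l1 (F x) (F y) + l1 (Q x) (Q y)) + α * l1 (B x) (B y) by
      rw [hW]; nlinarith
    by_cases hxy : K.Reachable x y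
    · wlog hle : r x ≤ r y generalizing x y with H
      · have := H y x (l1_nonneg _ _) (l1_nonneg _ _) (l1_nonneg _ _) hxy.symm (le_of_not_ge hle)
        rw [hcomm y x, l1_comm (F y), l1_comm (Q y), l1_comm (B y)] at this
        exact this
      have hFeq := hFsame x y hxy
      have hm2 := hmain x y
      rcases le_or_gt (r y) ((3 / 2) * r x) with hc | hc
      · rcases (hrnn x).lt_or_eq with hpos | hzero
        · have hxA : x ∉ A := fun h => hpos.ne' (hrA x h)
          have hlo := hQlow x y hpos hle hc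
          rcases le_total (l1 (h x) (h y)) (r x) with hm3 | hm3
          · rw [min_eq_left hm3] at hlo
            have := hlow x y hxA hxy
            nlinarith
          · rw [min_eq_right hm3] at hlo
            nlinarith
        · have : r y = 0 := le_antisymm (by linarith) (hrnn y)
          rw [← hzero, this] at hm2
          nlinarith
      · have : r x + r y ≤ 5 * l1 (F x) (F y) := by
          rw [hFeq, abs_sub_comm, abs_of_nonneg (by linarith : 0 ≤ r y - r x)]
          linarith
        nlinarith
    · have hFeq := hFdiff x y hxy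
      have hm2 := hmain x y
      rw [← hFeq] at hm2
      nlinarith
  · rw [hl]
    let f1 : V → ν → ℝ := f0
    have hedge : ∀ u v, G.Adj u v → l1 (f0 u) (f0 v) ≤ 40 * W * ℓ s(u, v) := by
      intro u v huv
      have hs : l1 (f0 u) (f0 v) = W * (l1 (F u) (F v) + l1 (Q u) (Q v) + l1 (B u) (B v)) := by
        rw [← hl u v, l1, Equiv.sum_comp eqv.symm fun i => |f0 u i - f0 v i|]
      rw [hs]
      have hle := gdist_le_adj hℓ huv
      have hBe := (hBlip u v).trans hle
      have hre := hrlip u v huv
      have hlpos := hℓ s(u, v) huv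
      have hQsum : ∀ w, w ∈ A → Q w = 0 := fun w hw => hQ0 w (hrA w hw)
      have hFQ : l1 (F u) (F v) + l1 (Q u) (Q v) ≤ 38 * ℓ s(u, v) := by
        by_cases hu : u ∈ A
        · have h1 : r v ≤ ℓ s(u, v) := by
            rw [hrA u hu, zero_sub, abs_neg, abs_of_nonneg (hrnn v)] at hre; exact hre
          have hQv : l1 (Q u) (Q v) ≤ 6 * r v := by
            have := hQn v
            rw [abs_of_nonneg (hrnn v)] at this
            simpa [l1, hQsum u hu] using this
          have hFv : l1 (F u) (F v) ≤ r u + r v := by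
            by_cases hk : K.Reachable u v
            · rw [hFsame u v hk]
              exact abs_sub_le_iff.2 ⟨by linarith [hrnn v], by linarith [hrnn u]⟩
            · rw [hFdiff u v hk]
          rw [hrA u hu] at hFv
          linarith
        · by_cases hv : v ∈ A
          · have h1 : r u ≤ ℓ s(u, v) := by
              rw [hrA v hv, sub_zero, abs_of_nonneg (hrnn u)] at hre; exact hre
            have hQu : l1 (Q u) (Q v) ≤ 6 * r u := by
              have := hQn u
              rw [abs_of_nonneg (hrnn u)] at this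
              simpa [l1, hQsum v hv] using this
            have hFv : l1 (F u) (F v) ≤ r u + r v := by
              by_cases hk : K.Reachable u v
              · rw [hFsame u v hk]
                exact abs_sub_le_iff.2 ⟨by linarith [hrnn v], by linarith [hrnn u]⟩
              · rw [hFdiff u v hk]
            rw [hrA v hv] at hFv
            linarith
          · have hk : K.Reachable u v := SimpleGraph.Adj.reachable (⟨huv, hu, hv⟩ : K.Adj u v)
            have hQuv := hQlip u v
            have hh := hlip u v huv hu hv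
            rw [hFsame u v hk]
            linarith
      nlinarith
    have hlipd := lip_gdist hG (by positivity) hedge x y
    have hs : l1 (f0 x) (f0 y) = W * (l1 (F x) (F y) + l1 (Q x) (Q y) + l1 (B x) (B y)) := by
      rw [← hl x y, l1, Equiv.sum_comp eqv.symm fun i => |f0 x i - f0 y i|]
    rw [← hs]
    refine hlipd.trans (mul_le_mul_of_nonneg_right ?_ (hnn x y))
    have hmle : (m : ℝ) ≤ 2 * Real.log A.card + 1 := by
      have := natLog_le A.card (Finset.card_pos.2 hA)
      simp only [m, Nat.cast_add, Nat.cast_one]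
      linarith
    have : (0 : ℝ) ≤ Real.log A.card := Real.log_natCast_nonneg _
    rw [hW, hα]
    nlinarith

end Vale.Agent.P235
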