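import Vale.Agent.P235.Extend

/-! # P235: star sums along few attachments preserve bounded `ℓ₁` distortion -/

open Finset

namespace Vale.Agent.P235

variable {V : Type} [Fintype V] {G : SimpleGraph V} {ℓ : Sym2 V → ℝ}

/-- Pieces glued to a core along at most `k` vertices each. -/
theorem star_embedding [DecidableEq V] (hG : G.Connected) (hℓ : ∀ e ∈ G.edgeSet, 0 < ℓ e)
    {A : Finset V} (hA : A.Nonempty) {β : ℝ} (hβ : 1 ≤ β) {ι : Type} [Fintype ι] (h : V → ι → ℝ)
    {α : ℝ} (hα1 : 1 ≤ α) {κ₀ : Type} [Fintype κ₀] (g : V → κ₀ → ℝ)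
    (hg : ∀ a ∈ A, ∀ b ∈ A, l1 (g a) (g b) ≤ gdist G ℓ a b ∧ gdist G ℓ a b ≤ α * l1 (g a) (g b))
    {k : ℕ} (hk : ∀ x, x ∉ A → (att G A x).card ≤ k)
    (hlip : ∀ u v, G.Adj u v → u ∉ A → v ∉ A → l1 (h u) (h v) ≤ ℓ s(u, v))
    (hlow : ∀ x y, x ∉ A → (avoid G A).Reachable x y → gdist G ℓ x y ≤ β * l1 (h x) (h y)) :
    ∃ (N : ℕ) (f : V → Fin N → ℝ), ∀ x y, gdist G ℓ x y ≤ ∑ i, |f x i - f y i| ∧
      ∑ i, |f x i - f y i| ≤ 20000 * (β + α * (k + 1)) * gdist G ℓ x y := by
  classical
  set d := gdist G ℓ
  have hd0 : ∀ x, d x x = 0 := gdist_self hℓ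
  have hcomm : ∀ x y, d x y = d y x := gdist_comm hℓ hG
  have htri : ∀ x y z, d x z ≤ d x y + d y z := gdist_triangle hℓ hG
  have hnn : ∀ x y, 0 ≤ d x y := gdist_nonneg hℓ
  set r : V → ℝ := dset d A with hr
  have hr_eq : ∀ x, r x = A.inf' hA (fun s => d x s) := fun x => dif_pos hA
  have hrnn : ∀ x, 0 ≤ r x := fun x => by
    rw [hr_eq]; exact Finset.le_inf' _ _ fun s _ => hnn x s
  have hrA : ∀ x ∈ A, r x = 0 := fun x hx => le_antisymm
    (by rw [hr_eq]; exact (Finset.inf'_le _ hx).trans (hd0 x).le) (hrnn x)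
  have hrlip : ∀ u v, G.Adj u v → |r u - r v| ≤ ℓ s(u, v) := fun u v huv =>
    (dset_lip htri hcomm hd0 A u v).trans (gdist_le_adj hℓ huv)
  obtain ⟨κ, _, Q, hQ0, hQn, hQlip, hQlow⟩ := exists_clip h r
  set K := avoid G A
  haveI : Fintype K.ConnectedComponent := Fintype.ofFinite _
  let F : V → K.ConnectedComponent → ℝ := fun x c => if c = K.connectedComponentMk x then r x else 0
  have hFsame : ∀ x y, K.Reachable x y → l1 (F x) (F y) = |r x - r y| := fun x y hxy => by
    have e := SimpleGraph.ConnectedComponent.eq.2 hxy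
    simp only [l1, F, e]
    rw [Finset.sum_eq_single (K.connectedComponentMk y) (fun c _ hc => by simp [hc]) (by simp)]
    simp
  have hFdiff : ∀ x y, ¬ K.Reachable x y → l1 (F x) (F y) = r x + r y := fun x y hxy => by
    have e : K.connectedComponentMk x ≠ K.connectedComponentMk y :=
      fun h => hxy (SimpleGraph.ConnectedComponent.eq.1 h)
    simp only [l1, F]
    rw [Finset.sum_eq_add (K.connectedComponentMk x) (K.connectedComponentMk y) e
      (fun c _ hc => by simp [hc.1, hc.2]) (by simp) (by simp)]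
    simp [e, e.symm, abs_of_nonneg (hrnn x), abs_of_nonneg (hrnn y)]
  obtain ⟨B, hBlip, hBnear⟩ := exists_extension hG hℓ hA hk g (fun a ha b hb => (hg a ha b hb).1)
  have hmain : ∀ x y, d x y ≤ (1 + 4 * α) * (r x + r y) + α * l1 (B x) (B y) := by
    intro x y
    obtain ⟨a, ha, hax⟩ := Finset.exists_mem_eq_inf' hA (fun s => d x s)
    obtain ⟨b, hb, hby⟩ := Finset.exists_mem_eq_inf' hA (fun s => d y s)
    rw [← hr_eq] at hax hby
    have h1 := (hg a ha b hb).2
    have h2 : l1 (B x) (g a) ≤ 3 * r x := hBnear x a ha (le_of_eq hax.symm)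
    have h3 : l1 (B y) (g b) ≤ 3 * r y := hBnear y b hb (le_of_eq hby.symm)
    have h4 : l1 (g a) (g b) ≤ 3 * r x + l1 (B x) (B y) + 3 * r y := by
      have := l1_triangle (g a) (B x) (g b)
      have := l1_triangle (B x) (B y) (g b)
      rw [l1_comm (B x) (g a)] at h2
      linarith
    have h5 := htri x a y
    have h6 := htri a b y
    rw [hcomm b y] at h6
    have := mul_le_mul_of_nonneg_left h4 (by linarith : (0 : ℝ) ≤ α)
    change d a b ≤ _ at h1
    nlinarith [hrnn x, hrnn y]
  set W : ℝ := 300 * (β + α) with hW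
  have hW0 : 0 < W := by rw [hW]; linarith
  let ν := K.ConnectedComponent ⊕ κ ⊕ κ₀
  let f0 : V → ν → ℝ := fun x => Sum.elim (fun c => W * F x c)
    (Sum.elim (fun j => W * Q x j) (fun p => α * B x p))
  let eqv := Fintype.equivFin ν
  refine ⟨Fintype.card ν, fun x i => f0 x (eqv.symm i), fun x y => ?_⟩
  have hl : ∀ x y, ∑ i, |f0 x (eqv.symm i) - f0 y (eqv.symm i)| =
      W * (l1 (F x) (F y) + l1 (Q x) (Q y)) + α * l1 (B x) (B y) := by
    intro x y
    rw [Equiv.sum_comp eqv.symm fun i => |f0 x i - f0 y i|, Fintype.sum_sum_type, Fintype.sum_sum_type]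
    simp only [f0, Sum.elim_inl, Sum.elim_inr, ← mul_sub, abs_mul, abs_of_pos hW0, abs_of_pos (lt_of_lt_of_le one_pos hα1), ← Finset.mul_sum,
      l1]
    ring
  refine ⟨?_, ?_⟩
  · rw [hl]
    have hF := l1_nonneg (F x) (F y)
    have hQ := l1_nonneg (Q x) (Q y)
    have hB := l1_nonneg (B x) (B y)
    suffices hsuff : d x y ≤ 300 * (β + α) * (l1 (F x) (F y) + l1 (Q x) (Q y)) + α * l1 (B x) (B y) by
      rw [hW]; nlinarith
    by_cases hxy : K.Reachable x y
    · wlog hle : r x ≤ r y generalizing x y with H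
      · have := H y x (l1_nonneg _ _) (l1_nonneg _ _) (l1_nonneg _ _) hxy.symm (le_of_not_ge hle)
        rw [hcomm y x, l1_comm (F y), l1_comm (Q y), l1_comm (B y)] at this
        exact this
      have hFeq := hFsame x y hxy
      have hm2 := hmain x y
      rcases le_or_gt (r y) ((3 / 2) * r x) with hc | hc
      · rcases (hrnn x).lt_or_eq with hpos | hzero
        · have hxA : x ∉ A := fun h => hpos.ne' (hrA x h)
          have hlo := hQlow x y hpos hle hc
          rcases le_total (l1 (h x) (h y)) (r x) with hm3 | hm3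
          · rw [min_eq_left hm3] at hlo
            have := hlow x y hxA hxy
            nlinarith
          · rw [min_eq_right hm3] at hlo
            nlinarith
        · have : r y = 0 := le_antisymm (by linarith) (hrnn y)
          rw [← hzero, this] at hm2
          nlinarith
      · have : r x + r y ≤ 5 * l1 (F x) (F y) := by
          rw [hFeq, abs_sub_comm, abs_of_nonneg (by linarith : 0 ≤ r y - r x)]
          linarith
        nlinarith
    · have hFeq := hFdiff x y hxy
      have hm2 := hmain x y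
      rw [← hFeq] at hm2
      nlinarith
  · rw [hl]
    let f1 : V → ν → ℝ := f0
    have hedge : ∀ u v, G.Adj u v → l1 (f0 u) (f0 v) ≤ (38 * W + α * (30 * k + 15)) * ℓ s(u, v) := by
      intro u v huv
      have hs : l1 (f0 u) (f0 v) = W * (l1 (F u) (F v) + l1 (Q u) (Q v)) + α * l1 (B u) (B v) := by
        rw [← hl u v, l1, Equiv.sum_comp eqv.symm fun i => |f0 u i - f0 v i|]
      rw [hs]
      have hle := gdist_le_adj hℓ huv
      have hBe := hBlip u v huv
      have hre := hrlip u v huv
      have hlpos := hℓ s(u, v) huv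
      have hQsum : ∀ w, w ∈ A → Q w = 0 := fun w hw => hQ0 w (hrA w hw)
      have hFQ : l1 (F u) (F v) + l1 (Q u) (Q v) ≤ 38 * ℓ s(u, v) := by
        by_cases hu : u ∈ A
        · have h1 : r v ≤ ℓ s(u, v) := by
            rw [hrA u hu, zero_sub, abs_neg, abs_of_nonneg (hrnn v)] at hre; exact hre
          have hQv : l1 (Q u) (Q v) ≤ 6 * r v := by
            have := hQn v
            rw [abs_of_nonneg (hrnn v)] at this
            simpa [l1, hQsum u hu] using this
          have hFv : l1 (F u) (F v) ≤ r u + r v := by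
            by_cases hk : K.Reachable u v
            · rw [hFsame u v hk]
              exact abs_sub_le_iff.2 ⟨by linarith [hrnn v], by linarith [hrnn u]⟩
            · rw [hFdiff u v hk]
          rw [hrA u hu] at hFv
          linarith
        · by_cases hv : v ∈ A
          · have h1 : r u ≤ ℓ s(u, v) := by
              rw [hrA v hv, sub_zero, abs_of_nonneg (hrnn u)] at hre; exact hre
            have hQu : l1 (Q u) (Q v) ≤ 6 * r u := by
              have := hQn u
              rw [abs_of_nonneg (hrnn u)] at this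
              simpa [l1, hQsum v hv] using this
            have hFv : l1 (F u) (F v) ≤ r u + r v := by
              by_cases hk : K.Reachable u v
              · rw [hFsame u v hk]
                exact abs_sub_le_iff.2 ⟨by linarith [hrnn v], by linarith [hrnn u]⟩
              · rw [hFdiff u v hk]
            rw [hrA v hv] at hFv
            linarith
          · have hk : K.Reachable u v := SimpleGraph.Adj.reachable (⟨huv, hu, hv⟩ : K.Adj u v)
            have hQuv := hQlip u v
            have hh := hlip u v huv hu hv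
            rw [hFsame u v hk]
            linarith
      nlinarith
    have hα0 : (0 : ℝ) < α := lt_of_lt_of_le one_pos hα1
    have hlipd := lip_gdist hG (by positivity) hedge x y
    have hs : l1 (f0 x) (f0 y) = W * (l1 (F x) (F y) + l1 (Q x) (Q y)) + α * l1 (B x) (B y) := by
      rw [← hl x y, l1, Equiv.sum_comp eqv.symm fun i => |f0 x i - f0 y i|]
    rw [← hs]
    refine hlipd.trans (mul_le_mul_of_nonneg_right ?_ (hnn x y))
    rw [hW]
    have : (0 : ℝ) ≤ α * k := mul_nonneg (by linarith) (Nat.cast_nonneg k)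
    nlinarith

end Vale.Agent.P235
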